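import Vale.Agent.P246.Cyc.Z7b
import Vale.Agent.P246.Gen.J

/-!
# The four projections of `ℤ[Q_28]`
-/

set_option linter.all false

namespace Vale.Agent.P246.Q28

open Vale.Agent.P246 Vale.Agent.P246.Q24 Vale.Agent.P246.Cyc QuaternionGroup

/-- the generalized quaternion group of order `28` -/
abbrev Q28 : Type := QuaternionGroup 7
/-- the group ring -/
abbrev L7 : Type := ZG Q28

/-- `x` -/
noncomputable abbrev X : L7 := Xn 7
/-- `x⁻¹` -/
noncomputable abbrev X' : L7 := Xn' 7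
/-- `y` -/
noncomputable abbrev Y : L7 := Yn 7

section rep

variable {R : Type} [CommRing R] [Invo R] {b : Bool}

theorem sg_pow7 (R : Type) [CommRing R] (b : Bool) : sg R b ^ 7 = sg R b := by
  cases b
  · simp
  · rw [sg_true]; norm_num
theorem sg_pow8 (R : Type) [CommRing R] (b : Bool) : sg R b ^ 8 = 1 := by
  cases b
  · simp
  · rw [sg_true]; norm_num

/-- the image of `x` -/
def xx (z : R) (b : Bool) : Dbl R b := Dbl.C (sg R b * z)
/-- the image of `y` -/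
def yy (R : Type) [CommRing R] (b : Bool) : Dbl R b := ⟨0, 1⟩

theorem xx_seven (z : R) (hz : z ^ 7 = 1) : xx z b ^ 7 = Dbl.C (sg R b) := by
  rw [xx, ← map_pow, mul_pow, hz, mul_one, sg_pow7]

theorem xx_eight (z : R) (hz : z ^ 7 = 1) : xx z b ^ 8 = Dbl.C z := by
  rw [xx, ← map_pow, mul_pow, sg_pow8, one_mul, pow_succ, hz, one_mul]

theorem xx_14 (z : R) (hz : z ^ 7 = 1) : xx z b ^ (2 * 7) = 1 := by
  rw [two_mul, pow_add, xx_seven z hz, ← map_mul, sg_mul_sg, map_one]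

theorem yy_sq (z : R) (hz : z ^ 7 = 1) : yy R b * yy R b = xx z b ^ 7 := by
  rw [xx_seven z hz]
  ext <;> simp [yy]

theorem xx_yy (z : R) (hc : z * conj z = 1) : xx z b * yy R b * xx z b = yy R b := by
  ext
  · simp [xx, yy]
  · cases b
    · simp [xx, yy, hc]
    · simp [xx, yy, hc]

/-- the representation of `Q_28` in `Dbl R b` -/
def qrep (z : R) (hz : z ^ 7 = 1) (hc : z * conj z = 1) : Q28 →* Dbl R b :=
  quatHom (xx z b) (yy R b) (xx_14 z hz) (yy_sq z hz) (xx_yy z hc)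

/-- the projection `ℤ[Q_28] → Dbl R b` -/
noncomputable def prj (z : R) (hz : z ^ 7 = 1) (hc : z * conj z = 1) : L7 →+* Dbl R b :=
  (MonoidAlgebra.lift ℤ (Dbl R b) Q28 (qrep (b := b) z hz hc)).toRingHom

theorem prj_elt (z : R) (hz : z ^ 7 = 1) (hc : z * conj z = 1) (g : Q28) :
    prj (b := b) z hz hc (elt g) = qrep (b := b) z hz hc g := by
  simp [prj, elt]

theorem prj_X (z : R) (hz : z ^ 7 = 1) (hc : z * conj z = 1) :
    prj (b := b) z hz hc X = xx z b := by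
  rw [X, Xn, prj_elt]
  exact pow_one _

theorem prj_Y (z : R) (hz : z ^ 7 = 1) (hc : z * conj z = 1) :
    prj (b := b) z hz hc Y = yy R b := by
  rw [Y, Yn, prj_elt]
  change yy R b * xx z b ^ 0 = _
  rw [pow_zero, mul_one]

end rep

/-- two ring homomorphisms out of `ℤ[Q_28]` agree if they agree on `X` and `Y` -/
theorem L7_hom_ext {R : Type*} [Ring R] {f g : L7 →+* R} (h1 : f X = g X) (h2 : f Y = g Y) :
    f = g := by
  apply MonoidAlgebra.ringHom_ext'
  · exact RingHom.ext_int _ _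
  · exact quat_hom_ext h1 h2

/-! ### the four rings -/

/-- `ℤ[C_2]` -/
abbrev T1 : Type := Dbl ℤ false
/-- `ℤ[i]` -/
abbrev T2 : Type := Dbl ℤ true
/-- `ℤ[ζ_7] ∘ C_2` -/
abbrev T3 : Type := Dbl S7 false
/-- `ℤ[ζ_7, j]` -/
abbrev T4 : Type := Dbl S7 true
/-- `𝔽_7` -/
abbrev F7 : Type := ZMod 7
/-- `𝔽_8` -/
abbrev K8 : Type := Cub (ZMod 2) false
/-- `𝔽_2[ζ_7]` -/
abbrev S8 : Type := Zt K8

/-- `ζ` -/
def zz : S7 := Zt.zeta K7

theorem zz_pow : zz ^ 7 = 1 := by decide +kernel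
theorem zz_conj : zz * conj zz = 1 := by decide

/-- the projection to `ℤ[C_2]` -/
noncomputable def pi1 : L7 →+* T1 := prj (1 : ℤ) (by norm_num) (by simp)
/-- the projection to `ℤ[i]` -/
noncomputable def pi2 : L7 →+* T2 := prj (1 : ℤ) (by norm_num) (by simp)
/-- the projection to `ℤ[ζ] ∘ C_2` -/
noncomputable def pi3 : L7 →+* T3 := prj zz zz_pow zz_conj
/-- the projection to `ℤ[ζ, j]` -/
noncomputable def pi4 : L7 →+* T4 := prj zz zz_pow zz_conj

theorem pi1_X : pi1 X = xx 1 false := prj_X _ _ _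
theorem pi2_X : pi2 X = xx 1 true := prj_X _ _ _
theorem pi3_X : pi3 X = xx zz false := prj_X _ _ _
theorem pi4_X : pi4 X = xx zz true := prj_X _ _ _
theorem pi1_Y : pi1 Y = yy ℤ false := prj_Y _ _ _
theorem pi2_Y : pi2 Y = yy ℤ true := prj_Y _ _ _
theorem pi3_Y : pi3 Y = yy S7 false := prj_Y _ _ _
theorem pi4_Y : pi4 Y = yy S7 true := prj_Y _ _ _

/-! ### reductions -/

/-- `ℤ → 𝔽_7` -/
def zF7 : ℤ →+* F7 := Int.castRingHom F7
/-- `ℤ[η] → 𝔽_8` -/
def kF8 : K7 →+* K8 := Cub.map zF2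
/-- `ℤ[ζ] → 𝔽_2[ζ]` -/
def sF8 : S7 →+* S8 := Zt.map kF8 (Cub.map_eta zF2)
/-- `ℤ[ζ] → 𝔽_7` -/
def sF7 : S7 →+* F7 := Zt.red1 rho7 rho7_eta

theorem zF7_conj (x : ℤ) : zF7 (conj x) = conj (zF7 x) := rfl
theorem sF8_conj (x : S7) : sF8 (conj x) = conj (sF8 x) := Zt.map_conj _ _ x
theorem sF7_conj (x : S7) : sF7 (conj x) = conj (sF7 x) := Zt.red1_conj _ _ x
theorem neg_one_S8 : (-1 : S8) = 1 := by decide

/-- `T1 → 𝔽_2[C_2]` -/
def a12 : T1 →+* Dbl F2 false := Dbl.red2 neg_one_F2 zF2 zF2_conj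
/-- `T2 → 𝔽_2[C_2]` -/
def b12 : T2 →+* Dbl F2 false := Dbl.red2 neg_one_F2 zF2 zF2_conj
/-- `T3 → M_2(𝔽_8)` -/
def a34 : T3 →+* Dbl S8 false := Dbl.red2 neg_one_S8 sF8 sF8_conj
/-- `T4 → M_2(𝔽_8)` -/
def b34 : T4 →+* Dbl S8 false := Dbl.red2 neg_one_S8 sF8 sF8_conj
/-- `T1 → 𝔽_7[C_2]` -/
def a13 : T1 →+* Dbl F7 false := Dbl.map zF7 zF7_conj
/-- `T3 → 𝔽_7[C_2]` -/
def b13 : T3 →+* Dbl F7 false := Dbl.map sF7 sF7_conj
/-- `T2 → 𝔽_49` -/
def a24 : T2 →+* Dbl F7 true := Dbl.map zF7 zF7_conj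
/-- `T4 → 𝔽_49` -/
def b24 : T4 →+* Dbl F7 true := Dbl.map sF7 sF7_conj

theorem pi_12 (a : L7) : a12 (pi1 a) = b12 (pi2 a) := by
  have h : a12.comp pi1 = b12.comp pi2 := by
    apply L7_hom_ext
    · rw [RingHom.comp_apply, RingHom.comp_apply, pi1_X, pi2_X]; decide
    · rw [RingHom.comp_apply, RingHom.comp_apply, pi1_Y, pi2_Y]; decide
  exact DFunLike.congr_fun h a

theorem pi_34 (a : L7) : a34 (pi3 a) = b34 (pi4 a) := by
  have h : a34.comp pi3 = b34.comp pi4 := by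
    apply L7_hom_ext
    · rw [RingHom.comp_apply, RingHom.comp_apply, pi3_X, pi4_X]; decide
    · rw [RingHom.comp_apply, RingHom.comp_apply, pi3_Y, pi4_Y]; decide
  exact DFunLike.congr_fun h a

theorem pi_13 (a : L7) : a13 (pi1 a) = b13 (pi3 a) := by
  have h : a13.comp pi1 = b13.comp pi3 := by
    apply L7_hom_ext
    · rw [RingHom.comp_apply, RingHom.comp_apply, pi1_X, pi3_X]; decide
    · rw [RingHom.comp_apply, RingHom.comp_apply, pi1_Y, pi3_Y]; decide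
  exact DFunLike.congr_fun h a

theorem pi_24 (a : L7) : a24 (pi2 a) = b24 (pi4 a) := by
  have h : a24.comp pi2 = b24.comp pi4 := by
    apply L7_hom_ext
    · rw [RingHom.comp_apply, RingHom.comp_apply, pi2_X, pi4_X]; decide
    · rw [RingHom.comp_apply, RingHom.comp_apply, pi2_Y, pi4_Y]; decide
  exact DFunLike.congr_fun h a

/-! ### a basis -/

/-- the element of order `7` -/
noncomputable def U : L7 := X ^ 8
/-- the central element of order two -/
noncomputable def Tt : L7 := X ^ 7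

/-- polynomials in `U` -/
noncomputable def pol (x : Fin 7 → ℤ) : L7 := ∑ i : Fin 7, x i • U ^ (i : ℕ)

theorem pol_add (x y : Fin 7 → ℤ) : pol (x + y) = pol x + pol y := by
  simp only [pol, Pi.add_apply, add_smul, Finset.sum_add_distrib]

theorem pol_zero : pol 0 = 0 := by simp [pol]

theorem pol_single (i : Fin 7) (n : ℤ) : pol (Pi.single i n) = n • U ^ (i : ℕ) := by
  rw [pol, Finset.sum_eq_single i, Pi.single_eq_same]
  · intro j _ hj
    rw [Pi.single_eq_of_ne hj, zero_smul]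
  · simp

/-- general elements -/
noncomputable def comb (a b c d : Fin 7 → ℤ) : L7 :=
  (pol a + pol b * Tt) + (pol c + pol d * Tt) * Y

theorem X_pow (k : ℕ) : X ^ k = elt (a 1 ^ k : Q28) := by
  induction k with
  | zero => rw [pow_zero, pow_zero]; rfl
  | succ k ih => rw [pow_succ, ih, pow_succ, X, Xn, elt_mul_elt]

theorem U_pow (k : ℕ) : U ^ k = elt ((a 1 ^ 8) ^ k : Q28) := by
  rw [U, ← pow_mul, X_pow, pow_mul]

theorem elt_cases : ∀ g : Q28, ∃ i : Fin 7, g = (a 1 ^ 8) ^ (i : ℕ) ∨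
    g = (a 1 ^ 8) ^ (i : ℕ) * a 1 ^ 7 ∨ g = (a 1 ^ 8) ^ (i : ℕ) * xa 0 ∨
    g = (a 1 ^ 8) ^ (i : ℕ) * a 1 ^ 7 * xa 0 := by decide

theorem exists_comb (x : L7) : ∃ a b c d, x = comb a b c d := by
  induction x using MonoidAlgebra.induction_linear with
  | zero => exact ⟨0, 0, 0, 0, by simp [comb, pol_zero]⟩
  | add x y hx hy =>
    obtain ⟨a, b, c, d, rfl⟩ := hx
    obtain ⟨a', b', c', d', rfl⟩ := hy
    refine ⟨a + a', b + b', c + c', d + d', ?_⟩
    simp only [comb, pol_add]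
    noncomm_ring
  | single g n =>
    have h0 : (MonoidAlgebra.single g n : L7) = n • elt g := by
      simp [elt]
    rw [h0]
    obtain ⟨i, h | h | h | h⟩ := elt_cases g
    · refine ⟨Pi.single i n, 0, 0, 0, ?_⟩
      rw [comb, pol_single, pol_zero, h, U_pow]
      simp
    · refine ⟨0, Pi.single i n, 0, 0, ?_⟩
      rw [comb, pol_single, pol_zero, h, U_pow, Tt, X_pow, smul_mul_assoc, elt_mul_elt]
      simp
    · refine ⟨0, 0, Pi.single i n, 0, ?_⟩
      rw [comb, pol_single, pol_zero, h, U_pow]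
      simp only [zero_mul, add_zero, zero_add]
      rw [smul_mul_assoc, Y, Yn, elt_mul_elt]
    · refine ⟨0, 0, 0, Pi.single i n, ?_⟩
      rw [comb, pol_single, pol_zero, h, U_pow]
      simp only [zero_mul, add_zero, zero_add]
      rw [smul_mul_assoc, smul_mul_assoc, Tt, X_pow, Y, Yn, elt_mul_elt, elt_mul_elt]

end Vale.Agent.P246.Q28
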