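import Vale.Agent.P246.Q28.E

/-!
# The image of `ℤ[Q_28]` in the four rings
-/

set_option linter.all false

namespace Vale.Agent.P246.Q28

open Vale.Agent.P246 Vale.Agent.P246.Q24 Vale.Agent.P246.Cyc QuaternionGroup

section rep

variable {R : Type} [CommRing R] [Invo R] {b : Bool}

/-- evaluation -/
def evp (z : R) (x : Fin 7 → ℤ) : R := ∑ i : Fin 7, x i • z ^ (i : ℕ)

theorem prj_U (z : R) (hz : z ^ 7 = 1) (hc : z * conj z = 1) :
    prj (b := b) z hz hc U = Dbl.C z := by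
  rw [U, map_pow, prj_X, xx_eight z hz]

theorem prj_Tt (z : R) (hz : z ^ 7 = 1) (hc : z * conj z = 1) :
    prj (b := b) z hz hc Tt = Dbl.C (sg R b) := by
  rw [Tt, map_pow, prj_X, xx_seven z hz]

theorem prj_pol (z : R) (hz : z ^ 7 = 1) (hc : z * conj z = 1) (x : Fin 7 → ℤ) :
    prj (b := b) z hz hc (pol x) = Dbl.C (evp z x) := by
  rw [pol, map_sum, evp, map_sum]
  refine Finset.sum_congr rfl (fun i _ => ?_)
  rw [map_zsmul, map_pow, prj_U, ← map_pow, ← map_zsmul]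

theorem prj_comb (z : R) (hz : z ^ 7 = 1) (hc : z * conj z = 1) (a e c d : Fin 7 → ℤ) :
    prj (b := b) z hz hc (comb a e c d) =
      ⟨evp z a + evp z e * sg R b, evp z c + evp z d * sg R b⟩ := by
  rw [comb, map_add, map_mul, map_add, map_add, map_mul, map_mul, prj_pol, prj_pol, prj_pol,
    prj_pol, prj_Tt, prj_Y]
  ext
  · simp [yy]
  · simp [yy]

end rep

theorem evp_one (x : Fin 7 → ℤ) : evp (1 : ℤ) x = ∑ i, x i := by
  simp [evp]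

theorem zz_pows : zz ^ 0 = ⟨⟨1, 0, 0⟩, ⟨0, 0, 0⟩⟩ ∧ zz ^ 1 = ⟨⟨0, 0, 0⟩, ⟨1, 0, 0⟩⟩ ∧
    zz ^ 2 = ⟨⟨-1, 0, 0⟩, ⟨0, 1, 0⟩⟩ ∧ zz ^ 3 = ⟨⟨0, -1, 0⟩, ⟨-1, 0, 1⟩⟩ ∧
    zz ^ 4 = ⟨⟨1, 0, -1⟩, ⟨1, 0, -1⟩⟩ ∧ zz ^ 5 = ⟨⟨-1, 0, 1⟩, ⟨0, -1, 0⟩⟩ ∧
    zz ^ 6 = ⟨⟨0, 1, 0⟩, ⟨-1, 0, 0⟩⟩ := by decide +kernel

theorem evp_zz (x : Fin 7 → ℤ) : evp zz x = cyc x := by
  obtain ⟨h0, h1, h2, h3, h4, h5, h6⟩ := zz_pows
  rw [evp, Fin.sum_univ_seven]
  have e0 : ((0 : Fin 7) : ℕ) = 0 := rfl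
  have e1 : ((1 : Fin 7) : ℕ) = 1 := rfl
  have e2 : ((2 : Fin 7) : ℕ) = 2 := rfl
  have e3 : ((3 : Fin 7) : ℕ) = 3 := rfl
  have e4 : ((4 : Fin 7) : ℕ) = 4 := rfl
  have e5 : ((5 : Fin 7) : ℕ) = 5 := rfl
  have e6 : ((6 : Fin 7) : ℕ) = 6 := rfl
  rw [e0, e1, e2, e3, e4, e5, e6, h0, h1, h2, h3, h4, h5, h6]
  ext <;> simp [cyc] <;> ring

theorem pi1_comb (a e c d : Fin 7 → ℤ) : pi1 (comb a e c d) =
    ⟨∑ i, a i + ∑ i, e i, ∑ i, c i + ∑ i, d i⟩ := by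
  rw [pi1, prj_comb]
  simp only [evp_one, sg_false, mul_one]

theorem pi2_comb (a e c d : Fin 7 → ℤ) : pi2 (comb a e c d) =
    ⟨∑ i, a i - ∑ i, e i, ∑ i, c i - ∑ i, d i⟩ := by
  rw [pi2, prj_comb]
  simp only [evp_one, sg_true, mul_neg, mul_one, sub_eq_add_neg]

theorem pi3_comb (a e c d : Fin 7 → ℤ) : pi3 (comb a e c d) =
    ⟨cyc a + cyc e, cyc c + cyc d⟩ := by
  rw [pi3, prj_comb]
  simp only [evp_zz, sg_false, mul_one]

theorem pi4_comb (a e c d : Fin 7 → ℤ) : pi4 (comb a e c d) =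
    ⟨cyc a - cyc e, cyc c - cyc d⟩ := by
  rw [pi4, prj_comb]
  simp only [evp_zz, sg_true, mul_neg, mul_one, sub_eq_add_neg]

/-! ### `ℤ[C_7]` as a fibre product -/

theorem cyc_add (x y : Fin 7 → ℤ) : cyc (x + y) = cyc x + cyc y := by
  ext <;> simp [cyc] <;> ring

theorem cyc_eq_zero {x : Fin 7 → ℤ} (h : cyc x = 0) (h0 : ∑ i, x i = 0) : x = 0 := by
  have a0 := congrArg (fun z : S7 => z.re.x0) h
  have a1 := congrArg (fun z : S7 => z.re.x1) h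
  have a2 := congrArg (fun z : S7 => z.re.x2) h
  have a3 := congrArg (fun z : S7 => z.im.x0) h
  have a4 := congrArg (fun z : S7 => z.im.x1) h
  have a5 := congrArg (fun z : S7 => z.im.x2) h
  rw [Fin.sum_univ_seven] at h0
  simp [cyc] at a0 a1 a2 a3 a4 a5
  funext i
  fin_cases i <;> simp <;> omega

theorem sum_mod (x : Fin 7 → ℤ) : ((∑ i, x i : ℤ) : F7) = sF7 (cyc x) := by
  have h7 : (7 : F7) = 0 := rfl
  rw [Fin.sum_univ_seven]
  simp [sF7, cyc, rho7]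
  linear_combination (x 4 : F7) * h7

theorem exists_cyc (n : ℤ) (z : S7) (h : (n : F7) = sF7 z) :
    ∃ x : Fin 7 → ℤ, ∑ i, x i = n ∧ cyc x = z := by
  have h1 : ((∑ i, coo z i : ℤ) : F7) = (n : F7) := by rw [sum_mod, cyc_coo, h]
  obtain ⟨k, hk⟩ := (ZMod.intCast_eq_intCast_iff_dvd_sub _ _ 7).1 h1
  refine ⟨fun i => coo z i + k, ?_, ?_⟩
  · rw [Finset.sum_add_distrib, Finset.sum_const, Finset.card_univ, Fintype.card_fin]
    simp only [nsmul_eq_mul]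
    push_cast at hk ⊢
    linarith
  · have : cyc (fun i => coo z i + k) = cyc (coo z) := by
      ext <;> simp [cyc] <;> ring
    rw [this, cyc_coo]

/-- two elements of `ℤ[C_7]` congruent modulo two -/
theorem exists_pair (n m : ℤ) (p q : S7) (h1 : (n : F7) = sF7 p) (h2 : (m : F7) = sF7 q)
    (h3 : zF2 n = zF2 m) (h4 : sF8 p = sF8 q) :
    ∃ x y : Fin 7 → ℤ, ∑ i, x i + ∑ i, y i = n ∧ ∑ i, x i - ∑ i, y i = m ∧
      cyc x + cyc y = p ∧ cyc x - cyc y = q := by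
  obtain ⟨P, hP1, hP2⟩ := exists_cyc n p h1
  obtain ⟨Q, hQ1, hQ2⟩ := exists_cyc m q h2
  have d0 : ∀ {x y : ℤ}, zF2 x = zF2 y → (2 : ℤ) ∣ x - y := by
    intro x y h
    have h' : ((x : ℤ) : ZMod 2) = ((y : ℤ) : ZMod 2) := h
    exact (ZMod.intCast_eq_intCast_iff_dvd_sub y x 2).1 h'.symm
  have e0 := d0 h3
  have e1 := d0 (congrArg (fun z : S8 => z.re.x0) h4)
  have e2 := d0 (congrArg (fun z : S8 => z.re.x1) h4)
  have e3 := d0 (congrArg (fun z : S8 => z.re.x2) h4)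
  have e4 := d0 (congrArg (fun z : S8 => z.im.x0) h4)
  have e5 := d0 (congrArg (fun z : S8 => z.im.x1) h4)
  have e6 := d0 (congrArg (fun z : S8 => z.im.x2) h4)
  rw [← hP2, ← hQ2] at e1 e2 e3 e4 e5 e6
  rw [← hP1, ← hQ1, Fin.sum_univ_seven, Fin.sum_univ_seven] at e0
  simp only [cyc] at e1 e2 e3 e4 e5 e6
  have key : ∀ i, ∃ c, P i - Q i = 2 * c := by
    intro i
    have : (2 : ℤ) ∣ P i - Q i := by
      fin_cases i <;> simp <;> omega
    exact this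
  choose c hc using key
  refine ⟨fun i => Q i + c i, c, ?_, ?_, ?_, ?_⟩
  · rw [← hP1, ← Finset.sum_add_distrib]
    refine Finset.sum_congr rfl (fun i _ => ?_)
    have := hc i
    linarith
  · rw [← hQ1, ← Finset.sum_sub_distrib]
    refine Finset.sum_congr rfl (fun i _ => ?_)
    ring
  · rw [← hP2, ← cyc_add]
    congr 1
    funext i
    have := hc i
    simp only [Pi.add_apply]
    linarith
  · rw [← hQ2, ← cyc_sub]
    congr 1
    funext i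
    ring

/-! ### injectivity and surjectivity -/

theorem pi_inj (a : L7) (h1 : pi1 a = 0) (h2 : pi2 a = 0) (h3 : pi3 a = 0) (h4 : pi4 a = 0) :
    a = 0 := by
  obtain ⟨x, y, z, w, rfl⟩ := exists_comb a
  rw [pi1_comb] at h1
  rw [pi2_comb] at h2
  rw [pi3_comb] at h3
  rw [pi4_comb] at h4
  have two : ∀ {p q : S7}, p + q = 0 → p - q = 0 → p = 0 ∧ q = 0 := by
    intro p q h5 h6
    have h7 : q = -p := by linear_combination h5
    have h8 : (2 : S7) * p = 0 := by linear_combination h5 + h6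
    have h9 : p = 0 := by
      have a0 := congrArg (fun z : S7 => z.re.x0) h8
      have a1 := congrArg (fun z : S7 => z.re.x1) h8
      have a2 := congrArg (fun z : S7 => z.re.x2) h8
      have a3 := congrArg (fun z : S7 => z.im.x0) h8
      have a4 := congrArg (fun z : S7 => z.im.x1) h8
      have a5 := congrArg (fun z : S7 => z.im.x2) h8
      simp at a0 a1 a2 a3 a4 a5
      ext <;> simp <;> omega
    exact ⟨h9, by rw [h7, h9, neg_zero]⟩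
  have s1 : ∑ i, x i + ∑ i, y i = 0 := congrArg Dbl.fst h1
  have s2 : ∑ i, x i - ∑ i, y i = 0 := congrArg Dbl.fst h2
  have s3 : ∑ i, z i + ∑ i, w i = 0 := congrArg Dbl.snd h1
  have s4 : ∑ i, z i - ∑ i, w i = 0 := congrArg Dbl.snd h2
  obtain ⟨c1, c2⟩ := two (congrArg Dbl.fst h3) (congrArg Dbl.fst h4)
  obtain ⟨c3, c4⟩ := two (congrArg Dbl.snd h3) (congrArg Dbl.snd h4)
  rw [cyc_eq_zero c1 (by linarith), cyc_eq_zero c2 (by linarith), cyc_eq_zero c3 (by linarith),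
    cyc_eq_zero c4 (by linarith)]
  simp [comb, pol_zero]

theorem pi_surj (t1 : T1) (t2 : T2) (t3 : T3) (t4 : T4) (h12 : a12 t1 = b12 t2)
    (h34 : a34 t3 = b34 t4) (h13 : a13 t1 = b13 t3) (h24 : a24 t2 = b24 t4) :
    ∃ a, pi1 a = t1 ∧ pi2 a = t2 ∧ pi3 a = t3 ∧ pi4 a = t4 := by
  obtain ⟨x, y, x1, x2, x3, x4⟩ := exists_pair t1.fst t2.fst t3.fst t4.fst
    (congrArg Dbl.fst h13) (congrArg Dbl.fst h24) (congrArg Dbl.fst h12) (congrArg Dbl.fst h34)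
  obtain ⟨z, w, y1, y2, y3, y4⟩ := exists_pair t1.snd t2.snd t3.snd t4.snd
    (congrArg Dbl.snd h13) (congrArg Dbl.snd h24) (congrArg Dbl.snd h12) (congrArg Dbl.snd h34)
  refine ⟨comb x y z w, ?_, ?_, ?_, ?_⟩
  · rw [pi1_comb, x1, y1]
  · rw [pi2_comb, x2, y2]
  · rw [pi3_comb, x3, y3]
  · rw [pi4_comb, x4, y4]

theorem pi_inj' {x y : L7} (h1 : pi1 x = pi1 y) (h2 : pi2 x = pi2 y) (h3 : pi3 x = pi3 y)
    (h4 : pi4 x = pi4 y) : x = y := by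
  apply sub_eq_zero.1
  apply pi_inj
  · rw [map_sub, h1, sub_self]
  · rw [map_sub, h2, sub_self]
  · rw [map_sub, h3, sub_self]
  · rw [map_sub, h4, sub_self]

end Vale.Agent.P246.Q28
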