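import Vale.Agent.P246.Q28.E2
import Vale.Agent.P246.Cyc.Lift2

/-!
# Lifting units to `T3`
-/

set_option linter.all false

namespace Vale.Agent.P246.Q28

open Vale.Agent.P246 Vale.Agent.P246.Q24 Vale.Agent.P246.Cyc QuaternionGroup

theorem a34_r2 (x : T3) : a34 x = r2 false x := rfl

theorem b13_seven : b13 ((7 : ℤ) : T3) = 0 := by
  rw [map_intCast]
  decide

theorem b13_eta : b13 (Dbl.C (Zt.C eta)) ^ 6 = 1 := by decide +kernel

theorem lift_a (δ δ' : Dbl S8 false) (h : δ * δ' = 1) : Lft (a34.prod b13) (δ, 1) :=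
  lft2 false b13 (N := 7) (by decide) b13_seven b13_eta δ δ' h

/-- a unit of `ℤ[η]` congruent to `1` modulo two with given residue -/
theorem K7_unit (s : F7) (hs : s ≠ 0) : ∃ u u' : K7, u * u' = 1 ∧ Cyc.m2 false u = 1 ∧
    rho7 u = s := by
  have key : ∀ s : F7, s ≠ 0 → ∃ j : Fin 2, ∃ k : Fin 3,
      rho7 ((-1) ^ (j : ℕ) * (eta ^ 7) ^ (k : ℕ)) = s := by decide +kernel
  obtain ⟨j, k, h⟩ := key s hs
  refine ⟨(-1) ^ (j : ℕ) * (eta ^ 7) ^ (k : ℕ), (-1) ^ (j : ℕ) * (ei false ^ 7) ^ (k : ℕ), ?_, ?_, h⟩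
  · have h1 : ((-1 : K7) ^ (j : ℕ)) * (-1) ^ (j : ℕ) = 1 := by rw [← mul_pow]; simp
    have h2 : ((eta : K7) ^ 7) ^ (k : ℕ) * (ei false ^ 7) ^ (k : ℕ) = 1 := by
      rw [← mul_pow, ← mul_pow, ei_spec, one_pow, one_pow]
    calc (-1 : K7) ^ (j : ℕ) * (eta ^ 7) ^ (k : ℕ) * ((-1) ^ (j : ℕ) * (ei false ^ 7) ^ (k : ℕ))
        = ((-1 : K7) ^ (j : ℕ) * (-1) ^ (j : ℕ)) *
          ((eta ^ 7) ^ (k : ℕ) * (ei false ^ 7) ^ (k : ℕ)) := by ring
      _ = 1 := by rw [h1, h2, one_mul]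
  · have key2 : ∀ j : Fin 2, ∀ k : Fin 3,
        Cyc.m2 false ((-1) ^ (j : ℕ) * (eta ^ 7) ^ (k : ℕ)) = 1 := by decide +kernel
    exact key2 j k

theorem b13_symm (g : Gam K7 (2 - eta)) : b13 ((gZ false).symm g) =
    ⟨4 * (rho7 g.a + rho7 g.d), 4 * (rho7 g.a - rho7 g.d)⟩ := by
  obtain ⟨x, rfl⟩ := (gZ false).surjective g
  rw [RingEquiv.symm_apply_apply]
  have h1 : rho7 (gZ false x).a = rho7 x.fst.re + rho7 x.fst.im + rho7 x.snd.re + rho7 x.snd.im := by
    change rho7 (_ + _ + _ + _) = _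
    rw [map_add, map_add, map_add]
  have h2 : rho7 (gZ false x).d = rho7 x.fst.re + rho7 x.fst.im - rho7 x.snd.re - rho7 x.snd.im := by
    change rho7 (_ + _ - (2 - eta) * _ - _ - _) = _
    have h3 : rho7 (2 - eta) = 0 := by decide
    rw [map_sub, map_sub, map_sub, map_add, map_mul, h3, zero_mul, sub_zero]
  rw [h1, h2]
  have h7 : (7 : F7) = 0 := rfl
  ext
  · change rho7 x.fst.re + rho7 x.fst.im = _
    linear_combination -(rho7 x.fst.re + rho7 x.fst.im) * h7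
  · change rho7 x.snd.re + rho7 x.snd.im = _
    linear_combination -(rho7 x.snd.re + rho7 x.snd.im) * h7

theorem Gam_diag {P : Type} [CommRing P] {π : P} {u u' v v' : P} (h : u * u' = 1) (k : v * v' = 1) :
    (⟨u, 0, 0, v⟩ : Gam P π) * ⟨u', 0, 0, v'⟩ = 1 := by
  ext <;> simp [h, k]

theorem lift_b (d d' : Dbl F7 false) (h : d * d' = 1) : Lft (a34.prod b13) (1, d) := by
  have hu : d.fst + d.snd ≠ 0 ∧ d.fst - d.snd ≠ 0 := by
    have h1 := congrArg Dbl.fst h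
    have h2 := congrArg Dbl.snd h
    simp [conj] at h1 h2
    constructor
    · intro h0
      have h3 : (d.fst + d.snd) * (d'.fst + d'.snd) = 1 := by linear_combination h1 + h2
      rw [h0, zero_mul] at h3
      exact absurd h3 (by decide)
    · intro h0
      have h3 : (d.fst - d.snd) * (d'.fst - d'.snd) = 1 := by linear_combination h1 - h2
      rw [h0, zero_mul] at h3
      exact absurd h3 (by decide)
  obtain ⟨u, u', u1, u2, u3⟩ := K7_unit _ hu.1
  obtain ⟨v, v', v1, v2, v3⟩ := K7_unit _ hu.2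
  refine ⟨(gZ false).symm ⟨u, 0, 0, v⟩, (gZ false).symm ⟨u', 0, 0, v'⟩, ?_, ?_, ?_⟩
  · rw [← map_mul, Gam_diag u1 v1, map_one]
  · rw [← map_mul, Gam_diag (by rw [mul_comm]; exact u1) (by rw [mul_comm]; exact v1), map_one]
  · apply Prod.ext
    · change r2 false ((gZ false).symm ⟨u, 0, 0, v⟩) = 1
      apply (gF false).injective
      rw [gF_r2, RingEquiv.apply_symm_apply, map_one]
      ext1
      · exact u2
      · exact map_zero _
      · exact map_zero _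
      · exact v2
    · change b13 ((gZ false).symm ⟨u, 0, 0, v⟩) = d
      rw [b13_symm]
      change (⟨4 * (rho7 u + rho7 v), 4 * (rho7 u - rho7 v)⟩ : Dbl F7 false) = d
      rw [u3, v3]
      have h7 : (7 : F7) = 0 := rfl
      ext
      · change 4 * (d.fst + d.snd + (d.fst - d.snd)) = d.fst
        linear_combination d.fst * h7
      · change 4 * (d.fst + d.snd - (d.fst - d.snd)) = d.snd
        linear_combination d.snd * h7

/-- every pair of units lifts to a unit of `T3` -/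
theorem lift3 (δ δ' : Dbl S8 false) (h : δ * δ' = 1) (d d' : Dbl F7 false) (k : d * d' = 1) :
    ∃ ε ε' : T3, ε * ε' = 1 ∧ ε' * ε = 1 ∧ a34 ε = δ ∧ b13 ε = d := by
  obtain ⟨ε, ε', h1, h2, h3⟩ := (lift_a δ δ' h).mul (lift_b d d' k)
  rw [Prod.mk_mul_mk, one_mul, mul_one] at h3
  exact ⟨ε, ε', h1, h2, congrArg Prod.fst h3, congrArg Prod.snd h3⟩

end Vale.Agent.P246.Q28
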