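import Vale.Agent.P246.Q28.F
import Vale.Agent.P246.Q24.I1

/-!
# The glued modules `Md e` and kernels of unimodular columns
-/

set_option linter.all false

namespace Vale.Agent.P246.Q28

open Vale.Agent.P246 Vale.Agent.P246.Q24 Vale.Agent.P246.Cyc Vale.Agent.P246.Gen QuaternionGroup

/-- `T1 × T2 × T3 × T4` as a module over the group ring -/
@[ext]
structure TM : Type where
  /-- component -/
  p1 : T1
  /-- component -/
  p2 : T2
  /-- component -/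
  p3 : T3
  /-- component -/
  p4 : T4

namespace TM

instance : Zero TM := ⟨⟨0, 0, 0, 0⟩⟩
instance : Add TM := ⟨fun s t => ⟨s.p1 + t.p1, s.p2 + t.p2, s.p3 + t.p3, s.p4 + t.p4⟩⟩
instance : Neg TM := ⟨fun t => ⟨-t.p1, -t.p2, -t.p3, -t.p4⟩⟩

theorem add_def (s t : TM) : s + t = ⟨s.p1 + t.p1, s.p2 + t.p2, s.p3 + t.p3, s.p4 + t.p4⟩ := rfl
theorem zero_def : (0 : TM) = ⟨0, 0, 0, 0⟩ := rfl
theorem neg_def (t : TM) : -t = ⟨-t.p1, -t.p2, -t.p3, -t.p4⟩ := rfl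

instance : AddCommGroup TM where
  add_assoc a b c := by ext1 <;> exact add_assoc _ _ _
  zero_add a := by ext1 <;> exact zero_add _
  add_zero a := by ext1 <;> exact add_zero _
  neg_add_cancel a := by ext1 <;> exact neg_add_cancel _
  add_comm a b := by ext1 <;> exact add_comm _ _
  nsmul := nsmulRec
  zsmul := zsmulRec

noncomputable instance : SMul L7 TM :=
  ⟨fun a t => ⟨pi1 a * t.p1, pi2 a * t.p2, pi3 a * t.p3, pi4 a * t.p4⟩⟩

theorem smul_def (a : L7) (t : TM) :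
    a • t = ⟨pi1 a * t.p1, pi2 a * t.p2, pi3 a * t.p3, pi4 a * t.p4⟩ := rfl

noncomputable instance : Module L7 TM where
  one_smul t := by
    rw [smul_def, map_one, map_one, map_one, map_one, one_mul, one_mul, one_mul, one_mul]
  mul_smul a b t := by
    rw [smul_def, smul_def, smul_def, map_mul, map_mul, map_mul, map_mul, mul_assoc, mul_assoc,
      mul_assoc, mul_assoc]
  smul_zero a := by
    rw [smul_def, zero_def, mul_zero, mul_zero, mul_zero, mul_zero]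
  smul_add a s t := by
    rw [smul_def, smul_def, smul_def, add_def, add_def, mul_add, mul_add, mul_add, mul_add]
  add_smul a b t := by
    rw [smul_def, smul_def, smul_def, add_def, map_add, map_add, map_add, map_add, add_mul,
      add_mul, add_mul, add_mul]
  zero_smul t := by
    rw [smul_def, map_zero, map_zero, map_zero, map_zero, zero_mul, zero_mul, zero_mul, zero_mul,
      zero_def]

end TM

theorem TM_smul (a : L7) (t : TM) :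
    a • t = ⟨pi1 a * t.p1, pi2 a * t.p2, pi3 a * t.p3, pi4 a * t.p4⟩ := rfl

/-- `{(t1,t2,t3,t4) : t1 = t2 mod 2, t3 = t4 mod 2, t1 = t3 mod (1-ζ), t2 e = t4 mod (1-ζ)}` -/
noncomputable def Md (e : Dbl F7 true) : Submodule L7 TM where
  carrier := {t | a12 t.p1 = b12 t.p2 ∧ a34 t.p3 = b34 t.p4 ∧
    a13 t.p1 = b13 t.p3 ∧ a24 t.p2 * e = b24 t.p4}
  add_mem' := by
    rintro a b ⟨h1, h2, h3, h4⟩ ⟨k1, k2, k3, k4⟩
    refine ⟨?_, ?_, ?_, ?_⟩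
    · change a12 (a.p1 + b.p1) = b12 (a.p2 + b.p2)
      rw [map_add, map_add, h1, k1]
    · change a34 (a.p3 + b.p3) = b34 (a.p4 + b.p4)
      rw [map_add, map_add, h2, k2]
    · change a13 (a.p1 + b.p1) = b13 (a.p3 + b.p3)
      rw [map_add, map_add, h3, k3]
    · change a24 (a.p2 + b.p2) * e = b24 (a.p4 + b.p4)
      rw [map_add, map_add, add_mul, h4, k4]
  zero_mem' := by
    refine ⟨?_, ?_, ?_, ?_⟩
    · change a12 0 = b12 0
      rw [map_zero, map_zero]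
    · change a34 0 = b34 0
      rw [map_zero, map_zero]
    · change a13 0 = b13 0
      rw [map_zero, map_zero]
    · change a24 0 * e = b24 0
      rw [map_zero, map_zero, zero_mul]
  smul_mem' := by
    rintro c a ⟨h1, h2, h3, h4⟩
    rw [TM_smul]
    refine ⟨?_, ?_, ?_, ?_⟩
    · change a12 (pi1 c * a.p1) = b12 (pi2 c * a.p2)
      rw [map_mul, map_mul, h1, pi_12]
    · change a34 (pi3 c * a.p3) = b34 (pi4 c * a.p4)
      rw [map_mul, map_mul, h2, pi_34]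
    · change a13 (pi1 c * a.p1) = b13 (pi3 c * a.p3)
      rw [map_mul, map_mul, h3, pi_13]
    · change a24 (pi2 c * a.p2) * e = b24 (pi4 c * a.p4)
      rw [map_mul, map_mul, mul_assoc, h4, pi_24]

theorem mem_Md {e : Dbl F7 true} {t : TM} : t ∈ Md e ↔
    a12 t.p1 = b12 t.p2 ∧ a34 t.p3 = b34 t.p4 ∧
    a13 t.p1 = b13 t.p3 ∧ a24 t.p2 * e = b24 t.p4 := Iff.rfl

theorem TM_ext {s t : TM} (h1 : s.p1 = t.p1) (h2 : s.p2 = t.p2) (h3 : s.p3 = t.p3)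
    (h4 : s.p4 = t.p4) : s = t :=
  TM.ext h1 h2 h3 h4

/-- right multiplication -/
def rmf (u1 : T1) (u2 : T2) (u3 : T3) (u4 : T4) (t : TM) : TM :=
  ⟨t.p1 * u1, t.p2 * u2, t.p3 * u3, t.p4 * u4⟩

theorem rmf_def (u1 : T1) (u2 : T2) (u3 : T3) (u4 : T4) (t : TM) : rmf u1 u2 u3 u4 t =
  ⟨t.p1 * u1, t.p2 * u2, t.p3 * u3, t.p4 * u4⟩ := rfl

theorem rmf_add (u1 : T1) (u2 : T2) (u3 : T3) (u4 : T4) (s t : TM) :
    rmf u1 u2 u3 u4 (s + t) = rmf u1 u2 u3 u4 s + rmf u1 u2 u3 u4 t := by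
  rw [rmf_def, rmf_def, rmf_def, TM.add_def, TM.add_def]
  simp only [add_mul]

theorem rmf_smul (u1 : T1) (u2 : T2) (u3 : T3) (u4 : T4) (a : L7) (t : TM) :
    rmf u1 u2 u3 u4 (a • t) = a • rmf u1 u2 u3 u4 t := by
  rw [rmf_def, rmf_def, TM_smul, TM_smul]
  simp only [mul_assoc]

/-- right multiplication -/
noncomputable def rmul (u1 : T1) (u2 : T2) (u3 : T3) (u4 : T4) : TM →ₗ[L7] TM where
  toFun := rmf u1 u2 u3 u4
  map_add' := rmf_add u1 u2 u3 u4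
  map_smul' := rmf_smul u1 u2 u3 u4

theorem rmul_rmul {u1 v1 : T1} {u2 v2 : T2} {u3 v3 : T3} {u4 v4 : T4} (h1 : u1 * v1 = 1)
    (h2 : u2 * v2 = 1) (h3 : u3 * v3 = 1) (h4 : u4 * v4 = 1) (t : TM) :
    rmul v1 v2 v3 v4 (rmul u1 u2 u3 u4 t) = t := by
  apply TM_ext
  · change t.p1 * u1 * v1 = _
    rw [mul_assoc, h1, mul_one]
  · change t.p2 * u2 * v2 = _
    rw [mul_assoc, h2, mul_one]
  · change t.p3 * u3 * v3 = _
    rw [mul_assoc, h3, mul_one]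
  · change t.p4 * u4 * v4 = _
    rw [mul_assoc, h4, mul_one]

theorem rmul_mem {e e' : Dbl F7 true} {u1 : T1} {u2 : T2} {u3 : T3} {u4 : T4}
    (c12 : a12 u1 = b12 u2) (c34 : a34 u3 = b34 u4) (c13 : a13 u1 = b13 u3)
    (c24 : a24 u2 * e' = e * b24 u4) (t : TM) (ht : t ∈ Md e) :
    rmul u1 u2 u3 u4 t ∈ Md e' := by
  obtain ⟨g1, g2, g3, g4⟩ := ht
  refine ⟨?_, ?_, ?_, ?_⟩
  · change a12 (t.p1 * u1) = b12 (t.p2 * u2)
    rw [map_mul, map_mul, g1, c12]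
  · change a34 (t.p3 * u3) = b34 (t.p4 * u4)
    rw [map_mul, map_mul, g2, c34]
  · change a13 (t.p1 * u1) = b13 (t.p3 * u3)
    rw [map_mul, map_mul, g3, c13]
  · change a24 (t.p2 * u2) * e' = b24 (t.p4 * u4)
    rw [map_mul, map_mul, ← g4, mul_assoc, c24, mul_assoc]

/-- right multiplication as a map of glued modules -/
noncomputable def rmulM {e e' : Dbl F7 true} {u1 : T1} {u2 : T2} {u3 : T3}
    {u4 : T4} (c12 : a12 u1 = b12 u2) (c34 : a34 u3 = b34 u4) (c13 : a13 u1 = b13 u3)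
    (c24 : a24 u2 * e' = e * b24 u4) : Md e →ₗ[L7] Md e' :=
  LinearMap.restrict (p := Md e) (q := Md e') (rmul u1 u2 u3 u4)
    (fun t ht => rmul_mem c12 c34 c13 c24 t ht)

theorem rmulM_coe {e e' : Dbl F7 true} {u1 : T1} {u2 : T2} {u3 : T3}
    {u4 : T4} (c12 : a12 u1 = b12 u2) (c34 : a34 u3 = b34 u4) (c13 : a13 u1 = b13 u3)
    (c24 : a24 u2 * e' = e * b24 u4) (t : Md e) :
    (rmulM c12 c34 c13 c24 t : TM) = rmul u1 u2 u3 u4 t.1 := rfl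

theorem inv_compat {R S P : Type} [Ring R] [Ring S] [Ring P] (f : R →+* P) (g : S →+* P)
    {u v : R} {u' v' : S} {d e : P} (h1 : v * u = 1) (h2 : u' * v' = 1) (h : f u * e = d * g u') :
    f v * d = e * g v' := by
  have : f v * (f u * e) * g v' = f v * (d * g u') * g v' := by rw [h]
  rw [← mul_assoc (f v), ← map_mul, h1, map_one, one_mul, mul_assoc, mul_assoc, ← map_mul,
    h2, map_one, mul_one] at this
  exact this.symm

theorem inv_compat' {R S P : Type} [Ring R] [Ring S] [Ring P] (f : R →+* P) (g : S →+* P)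
    {u v : R} {u' v' : S} (h1 : v * u = 1) (h2 : u' * v' = 1) (h : f u = g u') :
    f v = g v' := by
  have := inv_compat f g (d := 1) (e := 1) h1 h2 (by rw [mul_one, one_mul, h])
  rwa [mul_one, one_mul] at this

/-- right multiplication by compatible units changes the gluing data -/
theorem Md_iso {e e' : Dbl F7 true} {u1 v1 : T1} {u2 v2 : T2} {u3 v3 : T3}
    {u4 v4 : T4} (h1 : u1 * v1 = 1) (h1' : v1 * u1 = 1) (h2 : u2 * v2 = 1) (h2' : v2 * u2 = 1)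
    (h3 : u3 * v3 = 1) (h3' : v3 * u3 = 1) (h4 : u4 * v4 = 1) (h4' : v4 * u4 = 1)
    (c12 : a12 u1 = b12 u2) (c34 : a34 u3 = b34 u4) (c13 : a13 u1 = b13 u3)
    (c24 : a24 u2 * e' = e * b24 u4) : Nonempty (Md e ≃ₗ[L7] Md e') := by
  have k12 : a12 v1 = b12 v2 := inv_compat' a12 b12 h1' h2 c12
  have k34 : a34 v3 = b34 v4 := inv_compat' a34 b34 h3' h4 c34
  have k13 : a13 v1 = b13 v3 := inv_compat' a13 b13 h1' h3 c13
  have k24 : a24 v2 * e = e' * b24 v4 := inv_compat a24 b24 h2' h4 c24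
  refine ⟨LinearEquiv.ofLinear (rmulM c12 c34 c13 c24) (rmulM k12 k34 k13 k24) ?_ ?_⟩
  · apply LinearMap.ext
    intro t
    apply Subtype.ext
    rw [LinearMap.comp_apply, rmulM_coe, rmulM_coe]
    exact rmul_rmul h1' h2' h3' h4' t.1
  · apply LinearMap.ext
    intro t
    apply Subtype.ext
    rw [LinearMap.comp_apply, rmulM_coe, rmulM_coe]
    exact rmul_rmul h1 h2 h3 h4 t.1

/-- only the class of the gluing datum modulo units of `T4` matters -/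
theorem Md_unit {e e' : Dbl F7 true} {u4 v4 : T4} (h4 : u4 * v4 = 1) (h4' : v4 * u4 = 1)
    (h : e' = e * b24 u4) : Nonempty (Md e ≃ₗ[L7] Md e') := by
  obtain ⟨u3, v3, h3, h3', k1, k2⟩ := lift3 (b34 u4) (b34 v4) (by rw [← map_mul, h4, map_one])
    1 1 (one_mul 1)
  exact Md_iso (u1 := 1) (v1 := 1) (u2 := 1) (v2 := 1) (one_mul 1) (one_mul 1) (one_mul 1)
    (one_mul 1) h3 h3' h4 h4' (by rw [map_one, map_one]) k1 (by rw [map_one, k2])
    (by rw [map_one, one_mul, h])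

/-! ### kernels -/

/-- compatible kernel generators over the four rings -/
structure Loc (a b : L7) (u1 v1 : T1) (u2 v2 : T2) (u3 v3 : T3) (u4 v4 : T4)
    (e : Dbl F7 true) : Prop where
  k1 : KG (pi1 a) (pi1 b) u1 v1
  k2 : KG (pi2 a) (pi2 b) u2 v2
  k3 : KG (pi3 a) (pi3 b) u3 v3
  k4 : KG (pi4 a) (pi4 b) u4 v4
  u12 : a12 u1 = b12 u2
  v12 : a12 v1 = b12 v2
  u34 : a34 u3 = b34 u4
  v34 : a34 v3 = b34 v4
  u13 : a13 u1 = b13 u3
  v13 : a13 v1 = b13 v3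
  u24 : a24 u2 = e * b24 u4
  v24 : a24 v2 = e * b24 v4

theorem lin_add {T : Type} [Ring T] (p q p' q' r s : T) :
    (p + p') * r + (q + q') * s = (p * r + q * s) + (p' * r + q' * s) := by noncomm_ring

theorem lin_smul {T : Type} [Ring T] (c p q r s : T) :
    c * p * r + c * q * s = c * (p * r + q * s) := by noncomm_ring

/-- `v ↦ (π_i(v_0) r_i + π_i(v_1) s_i)_i` -/
noncomputable def tof (r1 s1 : T1) (r2 s2 : T2) (r3 s3 : T3) (r4 s4 : T4) (v : Fin 2 → L7) : TM :=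
  ⟨pi1 (v 0) * r1 + pi1 (v 1) * s1, pi2 (v 0) * r2 + pi2 (v 1) * s2,
    pi3 (v 0) * r3 + pi3 (v 1) * s3, pi4 (v 0) * r4 + pi4 (v 1) * s4⟩

theorem tof_def (r1 s1 : T1) (r2 s2 : T2) (r3 s3 : T3) (r4 s4 : T4) (v : Fin 2 → L7) :
    tof r1 s1 r2 s2 r3 s3 r4 s4 v =
  ⟨pi1 (v 0) * r1 + pi1 (v 1) * s1, pi2 (v 0) * r2 + pi2 (v 1) * s2,
    pi3 (v 0) * r3 + pi3 (v 1) * s3, pi4 (v 0) * r4 + pi4 (v 1) * s4⟩ := by unfold tof; rfl

theorem tof_add (r1 s1 : T1) (r2 s2 : T2) (r3 s3 : T3) (r4 s4 : T4) (v w : Fin 2 → L7) :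
    tof r1 s1 r2 s2 r3 s3 r4 s4 (v + w) =
      tof r1 s1 r2 s2 r3 s3 r4 s4 v + tof r1 s1 r2 s2 r3 s3 r4 s4 w := by
  rw [tof_def, tof_def, tof_def, TM.add_def]
  simp only [Pi.add_apply, map_add, lin_add]

theorem tof_smul (r1 s1 : T1) (r2 s2 : T2) (r3 s3 : T3) (r4 s4 : T4) (c : L7) (v : Fin 2 → L7) :
    tof r1 s1 r2 s2 r3 s3 r4 s4 (c • v) = c • tof r1 s1 r2 s2 r3 s3 r4 s4 v := by
  rw [tof_def, tof_def, TM_smul]
  simp only [Pi.smul_apply, smul_eq_mul, map_mul, lin_smul]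

/-- `v ↦ (π_i(v_0) r_i + π_i(v_1) s_i)_i` -/
noncomputable def toTM (r1 s1 : T1) (r2 s2 : T2) (r3 s3 : T3) (r4 s4 : T4) :
    (Fin 2 → L7) →ₗ[L7] TM where
  toFun := tof r1 s1 r2 s2 r3 s3 r4 s4
  map_add' := tof_add r1 s1 r2 s2 r3 s3 r4 s4
  map_smul' := tof_smul r1 s1 r2 s2 r3 s3 r4 s4

/-- coefficients with respect to generators -/
theorem coef_unique {T : Type} [Ring T] {u v r s x y t : T} (hrs : u * r + v * s = 1)
    (hx : x = t * u) (hy : y = t * v) : x * r + y * s = t := by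
  rw [hx, hy]
  calc t * u * r + t * v * s = t * (u * r + v * s) := by noncomm_ring
    _ = t := by rw [hrs, mul_one]

theorem right_cancel {T : Type} [Ring T] {u v x y : T} (hi : ∃ r s, u * r + v * s = 1)
    (h1 : x * u = y * u) (h2 : x * v = y * v) : x = y := by
  obtain ⟨r, s, h⟩ := hi
  calc x = x * (u * r + v * s) := by rw [h, mul_one]
    _ = x * u * r + x * v * s := by noncomm_ring
    _ = y * u * r + y * v * s := by rw [h1, h2]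
    _ = y * (u * r + v * s) := by noncomm_ring
    _ = y := by rw [h, mul_one]

theorem inv_im {T S : Type} [Ring T] [Ring S] (f : T →+* S) {u v : T}
    (hi : ∃ r s, u * r + v * s = 1) : ∃ r s, f u * r + f v * s = 1 := by
  obtain ⟨r, s, h⟩ := hi
  exact ⟨f r, f s, by rw [← map_mul, ← map_mul, ← map_add, h, map_one]⟩

theorem Loc.mem {a b : L7} {u1 v1 : T1} {u2 v2 : T2} {u3 v3 : T3} {u4 v4 : T4}
    {e : Dbl F7 true} (L : Loc a b u1 v1 u2 v2 u3 v3 u4 v4 e) {x y : L7} {t : TM}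
    (h1 : pi1 x = t.p1 * u1) (h1' : pi1 y = t.p1 * v1) (h2 : pi2 x = t.p2 * u2)
    (h2' : pi2 y = t.p2 * v2) (h3 : pi3 x = t.p3 * u3) (h3' : pi3 y = t.p3 * v3)
    (h4 : pi4 x = t.p4 * u4) (h4' : pi4 y = t.p4 * v4) : t ∈ Md e := by
  have e12 := pi_12 x
  have f12 := pi_12 y
  have e34 := pi_34 x
  have f34 := pi_34 y
  have e13 := pi_13 x
  have f13 := pi_13 y
  have e24 := pi_24 x
  have f24 := pi_24 y
  rw [h1, h2, map_mul, map_mul, L.u12] at e12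
  rw [h1', h2', map_mul, map_mul, L.v12] at f12
  rw [h3, h4, map_mul, map_mul, L.u34] at e34
  rw [h3', h4', map_mul, map_mul, L.v34] at f34
  rw [h1, h3, map_mul, map_mul, L.u13] at e13
  rw [h1', h3', map_mul, map_mul, L.v13] at f13
  rw [h2, h4, map_mul, map_mul, L.u24, ← mul_assoc] at e24
  rw [h2', h4', map_mul, map_mul, L.v24, ← mul_assoc] at f24
  exact mem_Md.2 ⟨right_cancel (inv_im b12 L.k2.inv) e12 f12,
    right_cancel (inv_im b34 L.k4.inv) e34 f34, right_cancel (inv_im b13 L.k3.inv) e13 f13,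
    right_cancel (inv_im b24 L.k4.inv) e24 f24⟩

theorem Loc.lift {a b : L7} {u1 v1 : T1} {u2 v2 : T2} {u3 v3 : T3} {u4 v4 : T4}
    {e : Dbl F7 true} (L : Loc a b u1 v1 u2 v2 u3 v3 u4 v4 e) {t : TM} (ht : t ∈ Md e) :
    ∃ x y : L7, pi1 x = t.p1 * u1 ∧ pi1 y = t.p1 * v1 ∧ pi2 x = t.p2 * u2 ∧
    pi2 y = t.p2 * v2 ∧ pi3 x = t.p3 * u3 ∧ pi3 y = t.p3 * v3 ∧
    pi4 x = t.p4 * u4 ∧ pi4 y = t.p4 * v4 := by
  obtain ⟨m1, m2, m3, m4⟩ := mem_Md.1 ht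
  obtain ⟨x, hx1, hx2, hx3, hx4⟩ := pi_surj (t.p1 * u1) (t.p2 * u2) (t.p3 * u3)
    (t.p4 * u4) (by rw [map_mul, map_mul, m1, L.u12]) (by rw [map_mul, map_mul, m2, L.u34])
    (by rw [map_mul, map_mul, m3, L.u13])
    (by rw [map_mul, map_mul, ← m4, L.u24, mul_assoc])
  obtain ⟨y, hy1, hy2, hy3, hy4⟩ := pi_surj (t.p1 * v1) (t.p2 * v2) (t.p3 * v3)
    (t.p4 * v4) (by rw [map_mul, map_mul, m1, L.v12]) (by rw [map_mul, map_mul, m2, L.v34])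
    (by rw [map_mul, map_mul, m3, L.v13])
    (by rw [map_mul, map_mul, ← m4, L.v24, mul_assoc])
  exact ⟨x, y, hx1, hy1, hx2, hy2, hx3, hy3, hx4, hy4⟩

/-- the coordinates with respect to the kernel generators -/
def Crd (x y : L7) (u1 v1 : T1) (u2 v2 : T2) (u3 v3 : T3) (u4 v4 : T4) (t : TM) : Prop :=
  pi1 x = t.p1 * u1 ∧ pi1 y = t.p1 * v1 ∧ pi2 x = t.p2 * u2 ∧
    pi2 y = t.p2 * v2 ∧ pi3 x = t.p3 * u3 ∧ pi3 y = t.p3 * v3 ∧
    pi4 x = t.p4 * u4 ∧ pi4 y = t.p4 * v4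

theorem KG.img {T : Type} [Ring T] (f : L7 →+* T) {a b x y : L7} {u v : T}
    (h : KG (f a) (f b) u v) (hv : x * a + y * b = 0) : ∃ t, f x = t * u ∧ f y = t * v :=
  h.gen (f x) (f y) (by rw [← map_mul, ← map_mul, ← map_add, hv, map_zero])

theorem Loc.crd {a b : L7} {u1 v1 : T1} {u2 v2 : T2} {u3 v3 : T3} {u4 v4 : T4}
    {e : Dbl F7 true} (L : Loc a b u1 v1 u2 v2 u3 v3 u4 v4 e) {x y : L7}
    (hv : x * a + y * b = 0) : ∃ t, Crd x y u1 v1 u2 v2 u3 v3 u4 v4 t := by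
  obtain ⟨t1, x1, y1⟩ := KG.img pi1 L.k1 hv
  obtain ⟨t2, x2, y2⟩ := KG.img pi2 L.k2 hv
  obtain ⟨t3, x3, y3⟩ := KG.img pi3 L.k3 hv
  obtain ⟨t4, x4, y4⟩ := KG.img pi4 L.k4 hv
  exact ⟨⟨t1, t2, t3, t4⟩, x1, y1, x2, y2, x3, y3, x4, y4⟩

theorem Crd.tof {v : Fin 2 → L7} {u1 v1 : T1} {u2 v2 : T2} {u3 v3 : T3} {u4 v4 : T4} {t : TM}
    (h : Crd (v 0) (v 1) u1 v1 u2 v2 u3 v3 u4 v4 t) {r1 s1 : T1} {r2 s2 : T2} {r3 s3 : T3}
    {r4 s4 : T4} (i1 : u1 * r1 + v1 * s1 = 1) (i2 : u2 * r2 + v2 * s2 = 1)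
    (i3 : u3 * r3 + v3 * s3 = 1) (i4 : u4 * r4 + v4 * s4 = 1) :
    tof r1 s1 r2 s2 r3 s3 r4 s4 v = t := by
  obtain ⟨x1, y1, x2, y2, x3, y3, x4, y4⟩ := h
  rw [tof_def, coef_unique i1 x1 y1, coef_unique i2 x2 y2, coef_unique i3 x3 y3,
    coef_unique i4 x4 y4]

theorem Crd.ker {a b x y : L7} {u1 v1 : T1} {u2 v2 : T2} {u3 v3 : T3} {u4 v4 : T4} {t : TM}
    {e : Dbl F7 true} (L : Loc a b u1 v1 u2 v2 u3 v3 u4 v4 e)
    (h : Crd x y u1 v1 u2 v2 u3 v3 u4 v4 t) : x * a + y * b = 0 := by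
  obtain ⟨x1, y1, x2, y2, x3, y3, x4, y4⟩ := h
  apply pi_inj'
  · rw [map_add, map_mul, map_mul, x1, y1, mul_assoc, mul_assoc, ← mul_add, L.k1.ker,
      mul_zero, map_zero]
  · rw [map_add, map_mul, map_mul, x2, y2, mul_assoc, mul_assoc, ← mul_add, L.k2.ker,
      mul_zero, map_zero]
  · rw [map_add, map_mul, map_mul, x3, y3, mul_assoc, mul_assoc, ← mul_add, L.k3.ker,
      mul_zero, map_zero]
  · rw [map_add, map_mul, map_mul, x4, y4, mul_assoc, mul_assoc, ← mul_add, L.k4.ker,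
      mul_zero, map_zero]

theorem Crd.zero {x y : L7} {u1 v1 : T1} {u2 v2 : T2} {u3 v3 : T3} {u4 v4 : T4}
    (h : Crd x y u1 v1 u2 v2 u3 v3 u4 v4 0) : x = 0 ∧ y = 0 := by
  obtain ⟨x1, y1, x2, y2, x3, y3, x4, y4⟩ := h
  rw [TM.zero_def, zero_mul] at x1 y1 x2 y2 x3 y3 x4 y4
  constructor
  · exact pi_inj _ x1 x2 x3 x4
  · exact pi_inj _ y1 y2 y3 y4

theorem equiv_of {R M N : Type} [Ring R] [AddCommGroup M] [Module R M] [AddCommGroup N]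
    [Module R N] (K : Submodule R M) (D : Submodule R N) (f : M →ₗ[R] N)
    (h1 : ∀ v ∈ K, f v ∈ D) (h2 : ∀ v ∈ K, f v = 0 → v = 0) (h3 : ∀ t ∈ D, ∃ v ∈ K, f v = t) :
    Nonempty (K ≃ₗ[R] D) := by
  refine ⟨LinearEquiv.ofBijective (LinearMap.restrict f h1) ⟨?_, ?_⟩⟩
  · rw [← LinearMap.ker_eq_bot, LinearMap.ker_eq_bot']
    rintro ⟨v, hv⟩ h0
    exact Subtype.ext (h2 v hv (congrArg Subtype.val h0))
  · rintro ⟨t, ht⟩
    obtain ⟨v, hv, h⟩ := h3 t ht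
    exact ⟨⟨v, hv⟩, Subtype.ext h⟩

theorem Loc.crd' {a b : L7} {u1 v1 : T1} {u2 v2 : T2} {u3 v3 : T3} {u4 v4 : T4}
    {e : Dbl F7 true} (L : Loc a b u1 v1 u2 v2 u3 v3 u4 v4 e) {r1 s1 : T1} {r2 s2 : T2}
    {r3 s3 : T3} {r4 s4 : T4} (i1 : u1 * r1 + v1 * s1 = 1) (i2 : u2 * r2 + v2 * s2 = 1)
    (i3 : u3 * r3 + v3 * s3 = 1) (i4 : u4 * r4 + v4 * s4 = 1) (v : Fin 2 → L7)
    (hv : v ∈ LinearMap.ker (colR a b)) :
    Crd (v 0) (v 1) u1 v1 u2 v2 u3 v3 u4 v4 (tof r1 s1 r2 s2 r3 s3 r4 s4 v) := by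
  obtain ⟨t, ht⟩ := L.crd hv
  rw [ht.tof i1 i2 i3 i4]
  exact ht

theorem Loc.mem' {a b : L7} {u1 v1 : T1} {u2 v2 : T2} {u3 v3 : T3} {u4 v4 : T4}
    {e : Dbl F7 true} (L : Loc a b u1 v1 u2 v2 u3 v3 u4 v4 e) {x y : L7} {t : TM}
    (h : Crd x y u1 v1 u2 v2 u3 v3 u4 v4 t) : t ∈ Md e := by
  obtain ⟨x1, y1, x2, y2, x3, y3, x4, y4⟩ := h
  exact L.mem x1 y1 x2 y2 x3 y3 x4 y4

theorem Loc.equiv {a b : L7} {u1 v1 : T1} {u2 v2 : T2} {u3 v3 : T3} {u4 v4 : T4}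
    {e : Dbl F7 true} (L : Loc a b u1 v1 u2 v2 u3 v3 u4 v4 e) :
    Nonempty (LinearMap.ker (colR a b) ≃ₗ[L7] Md e) := by
  obtain ⟨r1, s1, i1⟩ := L.k1.inv
  obtain ⟨r2, s2, i2⟩ := L.k2.inv
  obtain ⟨r3, s3, i3⟩ := L.k3.inv
  obtain ⟨r4, s4, i4⟩ := L.k4.inv
  refine equiv_of (LinearMap.ker (colR a b)) (Md e) (toTM r1 s1 r2 s2 r3 s3 r4 s4) ?_ ?_ ?_
  · intro v hv
    exact L.mem' (L.crd' i1 i2 i3 i4 v hv)
  · intro v hv h0
    have h2 := L.crd' i1 i2 i3 i4 v hv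
    rw [show tof r1 s1 r2 s2 r3 s3 r4 s4 v = 0 from h0] at h2
    obtain ⟨e0, e1⟩ := h2.zero
    funext i
    fin_cases i
    · exact e0
    · exact e1
  · intro t ht
    obtain ⟨x, y, h⟩ := L.lift ht
    exact ⟨![x, y], Crd.ker L h, Crd.tof (v := ![x, y]) h i1 i2 i3 i4⟩

end Vale.Agent.P246.Q28
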