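import Vale.Agent.P246.Q28.G
import Vale.Agent.P246.Gen.K

/-!
# Classification of the kernels of unimodular columns
-/

set_option linter.all false

namespace Vale.Agent.P246.Q28

open Vale.Agent.P246 Vale.Agent.P246.Q24 Vale.Agent.P246.Cyc Vale.Agent.P246.Gen QuaternionGroup

theorem T1_comm (x y : T1) : x * y = y * x := Dbl_comm (fun _ => rfl) x y
theorem T2_comm (x y : T2) : x * y = y * x := Dbl_comm (fun _ => rfl) x y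

theorem a12_neg (x : L7) : a12 (-pi1 x) = b12 (-pi2 x) := by
  rw [map_neg, map_neg, pi_12]

theorem glue34 {a b : L7} {u3 v3 : T3} {u4 v4 : T4} (h3 : Um (pi3 a) (pi3 b))
    (h4 : Um (pi4 a) (pi4 b)) (k3 : KG (pi3 a) (pi3 b) u3 v3) (k4 : KG (pi4 a) (pi4 b) u4 v4) :
    ∃ δ δ' : Dbl S8 false, δ * δ' = 1 ∧ b34 u4 = δ * a34 u3 ∧ b34 v4 = δ * a34 v3 := by
  have L3 := KG.map' a34 h3 k3
  have L4 := KG.map' b34 h4 k4
  rw [pi_34, pi_34] at L3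
  obtain ⟨δ, δ', d1, d2, d3, d4, -, -⟩ := L4.unit L3
  exact ⟨δ, δ', d1, d3, d4⟩

theorem glue13 {a b : L7} {u1 v1 : T1} {u3 v3 : T3} (h1 : Um (pi1 a) (pi1 b))
    (h3 : Um (pi3 a) (pi3 b)) (k1 : KG (pi1 a) (pi1 b) u1 v1) (k3 : KG (pi3 a) (pi3 b) u3 v3) :
    ∃ δ δ' : Dbl F7 false, δ * δ' = 1 ∧ a13 u1 = δ * b13 u3 ∧ a13 v1 = δ * b13 v3 := by
  have L3 := KG.map' b13 h3 k3
  have L1 := KG.map' a13 h1 k1
  rw [← pi_13, ← pi_13] at L3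
  obtain ⟨δ, δ', d1, d2, d3, d4, -, -⟩ := L1.unit L3
  exact ⟨δ, δ', d1, d3, d4⟩

theorem map_row {T S : Type} [Ring T] [Ring S] (f : T →+* S) {ε u : T} {δ x : S} (h : f ε = δ)
    (h' : x = δ * f u) : f (ε * u) = x := by
  rw [map_mul, h, h']

theorem T3_row {a b : L7} {u1 v1 : T1} {u v ε ε' : T3} {u4 v4 : T4} {δ : Dbl S8 false}
    {γ : Dbl F7 false} (k3 : KG (pi3 a) (pi3 b) u v) (e1 : ε * ε' = 1) (e2 : ε' * ε = 1)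
    (e3 : a34 ε = δ) (e4 : b13 ε = γ) (d2 : b34 u4 = δ * a34 u) (d3 : b34 v4 = δ * a34 v)
    (c2 : a13 u1 = γ * b13 u) (c3 : a13 v1 = γ * b13 v) :
    ∃ u3 v3, KG (pi3 a) (pi3 b) u3 v3 ∧ a34 u3 = b34 u4 ∧ a34 v3 = b34 v4 ∧
      a13 u1 = b13 u3 ∧ a13 v1 = b13 v3 :=
  ⟨ε * u, ε * v, Gen.KG.scale k3 e1 e2, map_row a34 e3 d2, map_row a34 e3 d3,
    (map_row b13 e4 c2).symm, (map_row b13 e4 c3).symm⟩

theorem exists_T3 {a b : L7} {u1 v1 : T1} {u4 v4 : T4} (h1 : Um (pi1 a) (pi1 b))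
    (h3 : Um (pi3 a) (pi3 b)) (h4 : Um (pi4 a) (pi4 b)) (k1 : KG (pi1 a) (pi1 b) u1 v1)
    (k4 : KG (pi4 a) (pi4 b) u4 v4) :
    ∃ u3 v3, KG (pi3 a) (pi3 b) u3 v3 ∧ a34 u3 = b34 u4 ∧ a34 v3 = b34 v4 ∧
      a13 u1 = b13 u3 ∧ a13 v1 = b13 v3 := by
  obtain ⟨c, d, h⟩ := h3
  obtain ⟨g, k, -, -, -, -, k3⟩ := (TR_Zt_false false).kg h
  obtain ⟨δ, δ', d1, d2, d3⟩ := glue34 ⟨c, d, h⟩ h4 k3 k4
  obtain ⟨γ, γ', c1, c2, c3⟩ := glue13 h1 ⟨c, d, h⟩ k1 k3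
  obtain ⟨ε, ε', e1, e2, e3, e4⟩ := lift3 δ δ' d1 γ γ' c1
  exact T3_row k3 e1 e2 e3 e4 d2 d3 c2 c3

/-- the kernel of a column is determined by its kernel generator over `T4` -/
theorem equiv_Md {a b : L7} {u4 v4 : T4} {e : Dbl F7 true} (h1 : Um (pi1 a) (pi1 b))
    (h2 : Um (pi2 a) (pi2 b)) (h3 : Um (pi3 a) (pi3 b)) (h4 : Um (pi4 a) (pi4 b))
    (k4 : KG (pi4 a) (pi4 b) u4 v4) (e1 : a24 (-pi2 b) = e * b24 u4)
    (e2 : a24 (pi2 a) = e * b24 v4) : Nonempty (LinearMap.ker (colR a b) ≃ₗ[L7] Md e) := by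
  obtain ⟨u3, v3, k3, c1, c2, c3, c4⟩ := exists_T3 h1 h3 h4 (KG_comm T1_comm h1) k4
  exact Loc.equiv (u1 := -pi1 b) (v1 := pi1 a) (u2 := -pi2 b) (v2 := pi2 a) (u3 := u3) (v3 := v3)
    (u4 := u4) (v4 := v4)
    { k1 := KG_comm T1_comm h1
      k2 := KG_comm T2_comm h2
      k3 := k3
      k4 := k4
      u12 := a12_neg b
      v12 := pi_12 a
      u34 := c1
      v34 := c2
      u13 := c3
      v13 := c4
      u24 := e1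
      v24 := e2 }

theorem Dt_a24 (g : Matrix (Fin 2) (Fin 2) T2) :
    Dt (a24.mapMatrix g) = zF7 (Dt g) := Dt_map zF7 zF7_conj g
theorem Dt_b24 (g : Matrix (Fin 2) (Fin 2) T4) :
    Dt (b24.mapMatrix g) = sF7 (Dt g) := Dt_map sF7 sF7_conj g

theorem rho_one {v w : K7} (hv : TN v) (h : v * w = 1) : rho7 v ^ 3 = 1 := by
  have h7 : Cub.nm v * Cub.nm w = 1 := by
    rw [← Cub.nm_mul, h, Cub.nm_one]
  have h8 : Cub.nm v = 1 := by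
    have := hv.nm_nonneg
    rcases Int.isUnit_iff.1 (IsUnit.of_mul_eq_one _ h7) with h | h
    · exact h
    · omega
  rw [← nm_rho7, h8, Int.cast_one]

theorem C_one {v w : K7} (h : (Zt.C v : S7) * Zt.C w = 1) : v * w = 1 := by
  rw [← map_mul] at h
  have h1 := congrArg Zt.re h
  exact h1

theorem Dt_C (g k : Matrix (Fin 2) (Fin 2) T4) (h5 : Dt g * Dt k = 1) (v : K7)
    (h1 : Dt g = Zt.C v) (w : K7) (h2 : Dt k = Zt.C w) : Zt.C v * Zt.C w = (1 : S7) := by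
  rw [← h1, ← h2]
  exact h5

theorem Dt_inv (g k : Matrix (Fin 2) (Fin 2) T4) (hgk : g * k = 1) : Dt g * Dt k = 1 := by
  rw [← Dt_mul, hgk, Dt_one]

/-- the determinant over `T4` -/
theorem Dt_T4 (g k : Matrix (Fin 2) (Fin 2) T4) (hgk : g * k = 1) :
    ∃ v : K7, Dt g = Zt.C v ∧ rho7 v ^ 3 = 1 := by
  obtain ⟨v, h1, h2⟩ := Dt_TN g
  obtain ⟨w, h3, h4⟩ := Dt_TN k
  exact ⟨v, h1, rho_one h2 (C_one (Dt_C g k (Dt_inv g k hgk) v h1 w h3))⟩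

theorem glue24 {a b c d : L7} (h : c * a + d * b = 1) {g k : Matrix (Fin 2) (Fin 2) T4}
    (C4 : Cmp (pi4 a) (pi4 b) g k) : ∃ e : Dbl F7 true, a24 (-pi2 b) = e * b24 (g 1 0) ∧
      a24 (pi2 a) = e * b24 (g 1 1) ∧ Dbl.nrd e ^ 3 = 1 := by
  obtain ⟨g2, k2, C2, t1, t2, t3⟩ := Cmp_comm (b := true) (fun _ => rfl)
    (show pi2 c * pi2 a + pi2 d * pi2 b = 1 by rw [← map_mul, ← map_mul, ← map_add, h, map_one])
  have M2 := C2.map a24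
  have M4 := C4.map b24
  rw [← pi_24, ← pi_24] at M4
  obtain ⟨e, e', -, -, e3, e4, -, -⟩ := M2.KG.unit M4.KG
  have hs := cmp_Dt M2 M4 e3 e4
  rw [Dt_a24, Dt_b24, t1, map_one] at hs
  obtain ⟨v, v1, v2⟩ := Dt_T4 g k C4.gk
  rw [v1] at hs
  have e5 : a24 (g2 1 0) = e * b24 (g 1 0) := e3
  have e6 : a24 (g2 1 1) = e * b24 (g 1 1) := e4
  rw [t2] at e5
  rw [t3] at e6
  refine ⟨e, e5, e6, ?_⟩
  have h9 : sF7 (Zt.C v) = rho7 v := by simp [sF7]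
  rw [h9] at hs
  calc Dbl.nrd e ^ 3 = (Dbl.nrd e * rho7 v) ^ 3 := by rw [mul_pow, v2, mul_one]
    _ = 1 := by rw [← hs, one_pow]

/-- the generator of the second class -/
def gg : Dbl F7 true := ⟨1, 1⟩

/-- units of `T4` -/
def w4 (k : Fin 6) (j : Fin 4) : T4 :=
  Dbl.C (Zt.C eta) ^ (k : ℕ) * (⟨0, 1⟩ : T4) ^ (j : ℕ)
/-- units of `T4` -/
def w4' (k : Fin 6) (j : Fin 4) : T4 :=
  (⟨0, -1⟩ : T4) ^ (j : ℕ) * Dbl.C (Zt.C (ei false)) ^ (k : ℕ)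

theorem w4_spec (k : Fin 6) (j : Fin 4) : w4 k j * w4' k j = 1 ∧ w4' k j * w4 k j = 1 := by
  have h1 : (Dbl.C (Zt.C eta) : T4) * Dbl.C (Zt.C (ei false)) = 1 := by
    rw [← map_mul, ← map_mul, ei_spec, map_one, map_one]
  have h2 : (Dbl.C (Zt.C (ei false)) : T4) * Dbl.C (Zt.C eta) = 1 := by
    rw [← map_mul, ← map_mul, mul_comm, ei_spec, map_one, map_one]
  have h3 : (⟨0, 1⟩ : T4) * ⟨0, -1⟩ = 1 := by decide
  have h4 : (⟨0, -1⟩ : T4) * ⟨0, 1⟩ = 1 := by decide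
  have pw1 : ∀ (x y : T4), x * y = 1 → ∀ n : ℕ, x ^ n * y ^ n = 1 := by
    intro x y h n
    induction n with
    | zero => simp
    | succ n ih => rw [pow_succ, pow_succ', mul_assoc, ← mul_assoc x y, h, one_mul, ih]
  constructor
  · rw [w4, w4', mul_assoc, ← mul_assoc ((⟨0, 1⟩ : T4) ^ _), pw1 _ _ h3, one_mul, pw1 _ _ h1]
  · rw [w4, w4', mul_assoc, ← mul_assoc (Dbl.C (Zt.C (ei false)) ^ _), pw1 _ _ h2, one_mul,
      pw1 _ _ h4]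

theorem classes : ∀ e : Dbl F7 true, Dbl.nrd e ^ 3 = 1 → ∃ k : Fin 6, ∃ j : Fin 4, ∃ l : Fin 2,
    gg ^ (l : ℕ) = e * ((⟨2, 0⟩ : Dbl F7 true) ^ (k : ℕ) * (⟨0, 1⟩ : Dbl F7 true) ^ (j : ℕ)) := by
  decide +kernel

theorem b24_w4 (k : Fin 6) (j : Fin 4) : b24 (w4 k j) =
    (⟨2, 0⟩ : Dbl F7 true) ^ (k : ℕ) * (⟨0, 1⟩ : Dbl F7 true) ^ (j : ℕ) := by
  rw [w4, map_mul, map_pow, map_pow]
  rfl

/-- the two classes -/
theorem Md_two (e : Dbl F7 true) (he : Dbl.nrd e ^ 3 = 1) :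
    ∃ l : Fin 2, Nonempty (Md e ≃ₗ[L7] Md (gg ^ (l : ℕ))) := by
  obtain ⟨k, j, l, h⟩ := classes e he
  rw [← b24_w4] at h
  exact ⟨l, Md_unit (w4_spec k j).1 (w4_spec k j).2 h⟩

/-- every kernel of a unimodular column is one of two modules -/
theorem ker_two {a b c d : L7} (h : c * a + d * b = 1) :
    ∃ l : Fin 2, Nonempty (LinearMap.ker (colR a b) ≃ₗ[L7] Md (gg ^ (l : ℕ))) := by
  have hU : Um a b := ⟨c, d, h⟩
  obtain ⟨g, k, w1, w2, w3, w4⟩ := TR_S7 (pi4 a) (pi4 b) (pi4 c) (pi4 d)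
    (by rw [← map_mul, ← map_mul, ← map_add, h, map_one])
  have C4 : Cmp (pi4 a) (pi4 b) g k := ⟨w1, w2, w3, w4⟩
  obtain ⟨e, e1, e2, e3⟩ := glue24 h C4
  obtain ⟨f⟩ := equiv_Md (hU.map pi1) (hU.map pi2) (hU.map pi3) (hU.map pi4) C4.KG e1 e2
  obtain ⟨l, ⟨f'⟩⟩ := Md_two e e3
  exact ⟨l, ⟨f.trans f'⟩⟩

end Vale.Agent.P246.Q28
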