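import Vale.Agent.P246.Gen.K

/-!
# The Mannan-Popiel presentation of `Q_{4n}`, general `n`

`realized_mp`: the kernel of the column `(x^n - x^{n+3} - x^{n+2}, y - x)` is realized by the
presentation `⟨x, y ∣ x^n = y², y⁻¹xyx² = x³y⁻¹x²y⟩`.
-/

set_option linter.all false

namespace Vale.Agent.P246.Q28

open Vale.Agent.P246 Vale.Agent.P246.Q24 Vale.Agent.P246.Gen QuaternionGroup

section

variable (n : ℕ) [NeZero n]

/-- `x^n` -/
noncomputable def Nn : ZG (QuaternionGroup n) := elt (a (n : ZMod (2 * n)))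

theorem Nn_eq : Nn n = Xn n ^ n := by
  have h : ∀ k : ℕ, Xn n ^ k = elt (a (k : ZMod (2 * n))) := by
    intro k
    induction k with
    | zero => rw [pow_zero, Nat.cast_zero, a_zero, elt_one]
    | succ k ih => rw [pow_succ, ih, Xn, elt_mul_elt, a_mul_a, Nat.cast_succ]
  rw [h n, Nn]

theorem Yinv : elt (gensQ n 1)⁻¹ = Nn n * Yn n := by
  change elt ((xa 0 : QuaternionGroup n)⁻¹) = _
  rw [Nn, Yn, elt_mul_elt, a_mul_xa]
  have h : (xa 0 : QuaternionGroup n)⁻¹ = xa ((n : ZMod (2 * n)) + 0) := rfl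
  rw [h]
  congr 2
  linear_combination two_n_zero n

theorem Xinv : elt (gensQ n 0)⁻¹ = Xn' n := rfl

theorem N_mul_N : Nn n * Nn n = 1 := by
  rw [Nn, elt_mul_elt, a_mul_a, two_n_zero, a_zero, elt_one]

theorem X_N : Xn n * Nn n = Nn n * Xn n := by
  rw [Nn, Xn, elt_mul_elt, elt_mul_elt, a_mul_a, a_mul_a, add_comm]

theorem X'_N : Xn' n * Nn n = Nn n * Xn' n := by
  rw [Nn, Xn', elt_mul_elt, elt_mul_elt, a_mul_a, a_mul_a, add_comm]

theorem Y_N : Yn n * Nn n = Nn n * Yn n := by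
  rw [Nn, Yn, elt_mul_elt, elt_mul_elt, xa_mul_a, a_mul_xa]
  congr 2
  linear_combination two_n_zero n

theorem X_Nx : (Xn n - 1) * Nx n = Nn n - 1 := by
  have h : ∀ m : ℕ, (Xn n - 1) * ∑ k ∈ Finset.range m, elt (a (k : ZMod (2 * n))) =
      elt (a (m : ZMod (2 * n))) - 1 := by
    intro m
    induction m with
    | zero => rw [Finset.sum_range_zero, mul_zero, Nat.cast_zero, a_zero, elt_one, sub_self]
    | succ m ih =>
      rw [Finset.sum_range_succ, mul_add, ih, sub_mul, one_mul, Xn, elt_mul_elt, a_mul_a,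
        Nat.cast_succ, add_comm (1 : ZMod (2 * n))]
      abel
  exact h n

theorem fw_nil (i : Fin 2) : foxWord (gensQ n) [] i = 0 := rfl
theorem fw_0t (w : List (Fin 2 × Bool)) (i : Fin 2) : foxWord (gensQ n) ((0, true) :: w) i =
    (Pi.single 0 1 : Fin 2 → ZG (QuaternionGroup n)) i + Xn n * foxWord (gensQ n) w i := by
  rw [foxWord_true]; rfl
theorem fw_1t (w : List (Fin 2 × Bool)) (i : Fin 2) : foxWord (gensQ n) ((1, true) :: w) i =
    (Pi.single 1 1 : Fin 2 → ZG (QuaternionGroup n)) i + Yn n * foxWord (gensQ n) w i := by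
  rw [foxWord_true]; rfl
theorem fw_0f (w : List (Fin 2 × Bool)) (i : Fin 2) : foxWord (gensQ n) ((0, false) :: w) i =
    Xn' n * (foxWord (gensQ n) w i - (Pi.single 0 1 : Fin 2 → ZG (QuaternionGroup n)) i) := by
  rw [foxWord_false]; rfl
theorem fw_1f (w : List (Fin 2 × Bool)) (i : Fin 2) : foxWord (gensQ n) ((1, false) :: w) i =
    Nn n * Yn n * (foxWord (gensQ n) w i - (Pi.single 1 1 : Fin 2 → ZG (QuaternionGroup n)) i) := by
  rw [foxWord_false, ← Yinv]; rfl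

theorem s00 : (Pi.single 0 1 : Fin 2 → ZG (QuaternionGroup n)) 0 = 1 := rfl
theorem s01 : (Pi.single 0 1 : Fin 2 → ZG (QuaternionGroup n)) 1 = 0 := rfl
theorem s10 : (Pi.single 1 1 : Fin 2 → ZG (QuaternionGroup n)) 0 = 0 := rfl
theorem s11 : (Pi.single 1 1 : Fin 2 → ZG (QuaternionGroup n)) 1 = 1 := rfl

/-- the word `y⁻¹ x y x x y⁻¹ x⁻¹ x⁻¹ y x⁻¹ x⁻¹ x⁻¹` -/
def wmp : List (Fin 2 × Bool) :=
  [(1, false), (0, true), (1, true), (0, true), (0, true), (1, false), (0, false), (0, false),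
   (1, true), (0, false), (0, false), (0, false)]

end

/-- the relations -/
structure Rel {R : Type} [Ring R] (X X' Y N : R) : Prop where
  h1 : X * X' = 1
  h2 : X' * X = 1
  h3 : Y * X = X' * Y
  h4 : Y * X' = X * Y
  h5 : X * N = N * X
  h6 : X' * N = N * X'
  h7 : Y * N = N * Y
  h8 : N * N = 1
  h9 : Y * Y = N

theorem rel_n (n : ℕ) [NeZero n] : Rel (Xn n) (Xn' n) (Yn n) (Nn n) :=
  ⟨XX' n, X'X n, YX n, YX' n, X_N n, X'_N n, Y_N n, N_mul_N n, YY n⟩

section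
variable {R : Type} [Ring R] {X X' Y N : R} (H : Rel X X' Y N)
include H
theorem Rel.h1' (t : R) : X * (X' * t) = t := by rw [← mul_assoc, H.h1, one_mul]
theorem Rel.h2' (t : R) : X' * (X * t) = t := by rw [← mul_assoc, H.h2, one_mul]
theorem Rel.h3' (t : R) : Y * (X * t) = X' * (Y * t) := by rw [← mul_assoc, H.h3, mul_assoc]
theorem Rel.h4' (t : R) : Y * (X' * t) = X * (Y * t) := by rw [← mul_assoc, H.h4, mul_assoc]
theorem Rel.h5' (t : R) : X * (N * t) = N * (X * t) := by rw [← mul_assoc, H.h5, mul_assoc]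
theorem Rel.h6' (t : R) : X' * (N * t) = N * (X' * t) := by rw [← mul_assoc, H.h6, mul_assoc]
theorem Rel.h7' (t : R) : Y * (N * t) = N * (Y * t) := by rw [← mul_assoc, H.h7, mul_assoc]
theorem Rel.h8' (t : R) : N * (N * t) = t := by rw [← mul_assoc, H.h8, one_mul]
theorem Rel.h9' (t : R) : Y * (Y * t) = N * t := by rw [← mul_assoc, H.h9]

theorem Rel.mp0 {M : R} (hM : (X - 1) * M = N - 1) :
    N * Y * (1 + X * (0 + Y * (1 + X * (1 + X * (N * Y * (X' * (X' * (0 + Y *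
      (X' * (X' * (X' * (0 - 1) - 1) - 1)) - 1) - 1) - 0))))) - 0) =
    (1 - X * X - X * X * X) * X' * N * (X - 1) * M + (N - N * X * X * X - N * X * X) * (Y + X') := by
  rw [mul_assoc _ (X - 1) M, hM]
  simp only [mul_add, add_mul, mul_sub, sub_mul, mul_zero, zero_mul, add_zero, zero_add, sub_zero,
    zero_sub, mul_neg, neg_mul, mul_one, one_mul, mul_assoc, H.h1, H.h2, H.h3, H.h4, H.h5, H.h6,
    H.h7, H.h8, H.h9, H.h1', H.h2', H.h3', H.h4', H.h5', H.h6', H.h7', H.h8', H.h9']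
  abel

theorem Rel.mp1 :
    N * Y * (0 + X * (1 + Y * (0 + X * (0 + X * (N * Y * (X' * (X' * (1 + Y *
      (X' * (X' * (X' * (0 - 0) - 0) - 0)) - 0) - 0) - 1))))) - 1) =
    -((1 - X * X - X * X * X) * X' * N * (X - 1) * (Y + 1)) +
      (N - N * X * X * X - N * X * X) * (1 - X') := by
  simp only [mul_add, add_mul, mul_sub, sub_mul, mul_zero, zero_mul, add_zero, zero_add, sub_zero,
    zero_sub, mul_neg, neg_mul, mul_one, one_mul, mul_assoc, H.h1, H.h2, H.h3, H.h4, H.h5, H.h6,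
    H.h7, H.h8, H.h9, H.h1', H.h2', H.h3', H.h4', H.h5', H.h6', H.h7', H.h8', H.h9']
  abel

end

section

variable (n : ℕ) [NeZero n]

/-- coefficient -/
noncomputable def alm : ZG (QuaternionGroup n) :=
  (1 - Xn n * Xn n - Xn n * Xn n * Xn n) * Xn' n * Nn n * (Xn n - 1)
/-- coefficient -/
noncomputable def bem : ZG (QuaternionGroup n) :=
  Nn n - Nn n * Xn n * Xn n * Xn n - Nn n * Xn n * Xn n

theorem fox_wmp_0 : foxWord (gensQ n) wmp 0 = alm n * Nx n + bem n * (Yn n + Xn' n) := by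
  rw [wmp]
  simp only [fw_nil, fw_0t, fw_0f, fw_1t, fw_1f, s00, s10]
  exact (rel_n n).mp0 (X_Nx n)

theorem fox_wmp_1 : foxWord (gensQ n) wmp 1 = -(alm n * (Yn n + 1)) + bem n * (1 - Xn' n) := by
  rw [wmp]
  simp only [fw_nil, fw_0t, fw_0f, fw_1t, fw_1f, s01, s11]
  exact (rel_n n).mp1

theorem fox_wmp : fox (gensQ n) (FreeGroup.mk wmp) = bd n ![alm n, bem n] := by
  rw [fox_mk, bd_apply]
  funext i
  fin_cases i
  · exact fox_wmp_0 n
  · exact fox_wmp_1 n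

/-- the relators of the Mannan-Popiel presentation -/
def relsmp : Fin 2 → FreeGroup (Fin 2) := ![relsQ n 0, FreeGroup.mk wmp]

theorem mk_wmp : (FreeGroup.mk wmp : FreeGroup (Fin 2)) =
    (FreeGroup.of 1)⁻¹ * FreeGroup.of 0 * FreeGroup.of 1 * FreeGroup.of 0 * FreeGroup.of 0 *
    (FreeGroup.of 1)⁻¹ * (FreeGroup.of 0)⁻¹ * (FreeGroup.of 0)⁻¹ * FreeGroup.of 1 *
    (FreeGroup.of 0)⁻¹ * (FreeGroup.of 0)⁻¹ * (FreeGroup.of 0)⁻¹ := rfl

theorem rel_xy : (xa 0 : QuaternionGroup n)⁻¹ * a 1 * xa 0 = (a 1)⁻¹ := by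
  have h : (a 1 : QuaternionGroup n) * xa 0 = xa 0 * (a 1)⁻¹ := by
    have h1 : (a 1 : QuaternionGroup n)⁻¹ = a (-1) := rfl
    rw [h1, a_mul_xa, xa_mul_a, zero_sub, zero_add]
  rw [mul_assoc, h, inv_mul_cancel_left]

theorem lift_wmp : FreeGroup.lift (gensQ n) (FreeGroup.mk wmp) = 1 := by
  rw [mk_wmp]
  simp only [map_mul, map_inv, FreeGroup.lift_apply_of]
  change (xa 0 : QuaternionGroup n)⁻¹ * a 1 * xa 0 * a 1 * a 1 * (xa 0)⁻¹ * (a 1)⁻¹ * (a 1)⁻¹ *
    xa 0 * (a 1)⁻¹ * (a 1)⁻¹ * (a 1)⁻¹ = 1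
  have h := rel_xy n
  generalize (xa 0 : QuaternionGroup n) = y at h ⊢
  generalize (a 1 : QuaternionGroup n) = x at h ⊢
  have h2 : y⁻¹ * x⁻¹ * y = x := by
    have := congrArg (·⁻¹) h
    simp only [mul_inv_rev, inv_inv] at this
    rw [← mul_assoc] at this
    exact this
  calc y⁻¹ * x * y * x * x * y⁻¹ * x⁻¹ * x⁻¹ * y * x⁻¹ * x⁻¹ * x⁻¹
      = (y⁻¹ * x * y) * x * x * (y⁻¹ * x⁻¹ * y) * (y⁻¹ * x⁻¹ * y) * x⁻¹ * x⁻¹ * x⁻¹ := by group
    _ = 1 := by rw [h, h2]; group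

theorem ker_mp : (FreeGroup.lift (gensQ n)).ker = Subgroup.normalClosure (Set.range (relsmp n)) := by
  apply pres_ker
  · intro j
    fin_cases j
    · change FreeGroup.lift (gensQ n) (relsQ n 0) = 1
      rw [← MonoidHom.mem_ker, gensQ_ker]
      exact Subgroup.subset_normalClosure ⟨0, rfl⟩
    · exact lift_wmp n
  · intro H _ q hq
    have h0 : q (relsQ n 0) = 1 := hq 0
    have h1 : q (FreeGroup.mk wmp) = 1 := hq 1
    have e0 : relsQ n 0 = FreeGroup.of 0 ^ n * (FreeGroup.of 1)⁻¹ ^ 2 := rfl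
    rw [e0, map_mul, map_pow, map_pow, map_inv] at h0
    rw [mk_wmp] at h1
    simp only [map_mul, map_inv] at h1
    have h2 : q (FreeGroup.of 1) * q (FreeGroup.of 1) = q (FreeGroup.of 0) ^ n := by
      have h := mul_eq_one_iff_eq_inv.1 h0
      rw [h, inv_pow, inv_inv, sq]
    exact ⟨h2, xyx_of (rel_aux n _ _ h2 h1)⟩

/-- the kernel of the column `(x^n - x^{n+3} - x^{n+2}, y - x)` is realized -/
theorem realized_mp {a b : ZG (QuaternionGroup n)}
    (e : Nonempty (LinearMap.ker (colR a b) ≃ₗ[ZG (QuaternionGroup n)]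
      LinearMap.ker (colR (bem n) (Yn n - Xn n)))) : Realized n a b := by
  refine ⟨relsmp n, alm n, bem n, 0, ker_mp n, fox_0 n, fox_wmp n, ?_⟩
  have e1 : bem n - alm n * 0 = bem n := by simp
  have e2 : (Xn n - 1) * 0 - (Xn n - Yn n) = Yn n - Xn n := by simp
  rw [e1, e2]
  exact e

end

end Vale.Agent.P246.Q28
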