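import Vale.Agent.P246.Q28.H
import Vale.Agent.P246.Q28.MP

/-!
# Realization of the two classes
-/

set_option linter.all false

namespace Vale.Agent.P246.Q28

open Vale.Agent.P246 Vale.Agent.P246.Q24 Vale.Agent.P246.Cyc Vale.Agent.P246.Gen QuaternionGroup

/-! ### the trivial class -/

theorem Um_one {T : Type} [Ring T] (c : T) : Um (1 : T) (-c) := ⟨1, 0, by simp⟩

theorem std_Md : Nonempty (LinearMap.ker (colR (1 : L7) (-(X - Y))) ≃ₗ[L7] Md (gg ^ 0)) := by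
  refine equiv_Md (u4 := pi4 (X - Y)) (v4 := 1) ((Um_one _).map pi1) ((Um_one _).map pi2)
    ((Um_one _).map pi3) ((Um_one _).map pi4) ?_ ?_ ?_
  · have h := Gen.KG_col (pi4 (X - Y))
    rw [map_one, map_neg]
    exact h
  · have h : -pi2 (-(X - Y)) = pi2 (X - Y) := by rw [map_neg, neg_neg]
    rw [h, pow_zero, one_mul, pi_24]
  · rw [map_one, map_one, map_one, pow_zero, one_mul]

/-! ### the second class -/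

/-- column entry -/
noncomputable def pa : L7 := bem 7
/-- column entry -/
noncomputable def pb : L7 := Y - X

theorem pa_eq : pa = X ^ 7 - X ^ 7 * X * X * X - X ^ 7 * X * X := by
  rw [pa, bem, Nn_eq]

/-- image of `pa` -/
def pa4 : T4 := ⟨⟨⟨-2, 1, 0⟩, ⟨1, 1, -1⟩⟩, ⟨⟨0, 0, 0⟩, ⟨0, 0, 0⟩⟩⟩
/-- image of `pb` -/
def pb4 : T4 := ⟨⟨⟨0, 0, 0⟩, ⟨1, 0, 0⟩⟩, ⟨⟨1, 0, 0⟩, ⟨0, 0, 0⟩⟩⟩
/-- image of `pa` -/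
def pa3 : T3 := ⟨⟨⟨2, 1, 0⟩, ⟨1, -1, -1⟩⟩, ⟨⟨0, 0, 0⟩, ⟨0, 0, 0⟩⟩⟩
/-- image of `pb` -/
def pb3 : T3 := ⟨⟨⟨0, 0, 0⟩, ⟨-1, 0, 0⟩⟩, ⟨⟨1, 0, 0⟩, ⟨0, 0, 0⟩⟩⟩

theorem pi4_pa : pi4 pa = pa4 := by
  rw [pa_eq]
  simp only [map_sub, map_mul, map_pow, pi4_X]
  decide +kernel
theorem pi4_pb : pi4 pb = pb4 := by
  rw [pb, map_sub, pi4_X, pi4_Y]
  decide +kernel
theorem pi3_pa : pi3 pa = pa3 := by
  rw [pa_eq]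
  simp only [map_sub, map_mul, map_pow, pi3_X]
  decide +kernel
theorem pi3_pb : pi3 pb = pb3 := by
  rw [pb, map_sub, pi3_X, pi3_Y]
  decide +kernel
theorem pi1_pa : pi1 pa = ⟨-1, 0⟩ := by
  rw [pa_eq]
  simp only [map_sub, map_mul, map_pow, pi1_X]
  decide +kernel
theorem pi1_pb : pi1 pb = ⟨-1, 1⟩ := by
  rw [pb, map_sub, pi1_X, pi1_Y]
  decide +kernel
theorem pi2_pa : pi2 pa = ⟨-1, 0⟩ := by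
  rw [pa_eq]
  simp only [map_sub, map_mul, map_pow, pi2_X]
  decide +kernel
theorem pi2_pb : pi2 pb = ⟨1, 1⟩ := by
  rw [pb, map_sub, pi2_X, pi2_Y]
  decide +kernel

theorem um1 : Um (pi1 pa) (pi1 pb) := by
  rw [pi1_pa, pi1_pb]
  exact ⟨-1, 0, by decide +kernel⟩
theorem um2 : Um (pi2 pa) (pi2 pb) := by
  rw [pi2_pa, pi2_pb]
  exact ⟨-1, 0, by decide +kernel⟩
theorem um3 : Um (pi3 pa) (pi3 pb) := by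
  rw [pi3_pa, pi3_pb]
  exact ⟨⟨⟨⟨0, -1, 0⟩, ⟨-1, 0, 1⟩⟩, ⟨⟨0, 0, 0⟩, ⟨0, -1, 0⟩⟩⟩,
    ⟨⟨⟨0, -1, 1⟩, ⟨0, 1, 1⟩⟩, ⟨⟨0, 1, 0⟩, ⟨1, 0, 0⟩⟩⟩, by decide +kernel⟩

/-- certificate -/
def pu4 : T4 := ⟨⟨⟨0, 0, 0⟩, ⟨0, 0, 0⟩⟩, ⟨⟨0, -1, 0⟩, ⟨1, 1, 1⟩⟩⟩
/-- certificate -/
def pv4 : T4 := ⟨⟨⟨0, -1, 0⟩, ⟨1, 0, 0⟩⟩, ⟨⟨-1, 0, 0⟩, ⟨0, 0, 0⟩⟩⟩
/-- certificate -/
def pc4 : T4 := ⟨⟨⟨0, 1, 1⟩, ⟨-1, -1, 0⟩⟩, ⟨⟨0, 0, -1⟩, ⟨1, 0, -2⟩⟩⟩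
/-- certificate -/
def pd4 : T4 := ⟨⟨⟨0, 2, -1⟩, ⟨1, 0, -2⟩⟩, ⟨⟨-1, 0, 1⟩, ⟨0, 0, 0⟩⟩⟩
/-- certificate -/
def pr4 : T4 := ⟨⟨⟨3, 1, -3⟩, ⟨3, 2, -3⟩⟩, ⟨⟨-2, 0, 1⟩, ⟨0, 0, 0⟩⟩⟩
/-- certificate -/
def ps4 : T4 := ⟨⟨⟨0, 0, 0⟩, ⟨-1, 0, 1⟩⟩, ⟨⟨0, 0, 0⟩, ⟨2, 1, -1⟩⟩⟩

theorem cert4 : pc4 * pa4 + pd4 * pb4 = 1 := by decide +kernel
theorem cert4a : pu4 * pa4 + pv4 * pb4 = 0 := by decide +kernel
theorem cert4b : pu4 * pr4 + pv4 * ps4 = 1 := by decide +kernel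
theorem cert4c : pa4 * pc4 + pr4 * pu4 = 1 := by decide +kernel
theorem cert4d : pa4 * pd4 + pr4 * pv4 = 0 := by decide +kernel
theorem cert4e : pb4 * pc4 + ps4 * pu4 = 0 := by decide +kernel
theorem cert4f : pb4 * pd4 + ps4 * pv4 = 1 := by decide +kernel

theorem um4 : Um (pi4 pa) (pi4 pb) := by
  rw [pi4_pa, pi4_pb]
  exact ⟨pc4, pd4, cert4⟩

theorem kg4 : KG (pi4 pa) (pi4 pb) pu4 pv4 := by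
  rw [pi4_pa, pi4_pb]
  exact Gen.KG_mk pc4 pd4 pr4 ps4 ⟨cert4a, cert4b, cert4c, cert4d, cert4e, cert4f⟩

/-- the gluing datum -/
def pe : Dbl F7 true := ⟨4, 3⟩

theorem pe1 : a24 (-pi2 pb) = pe * b24 pu4 := by
  rw [pi2_pb]
  decide +kernel
theorem pe2 : a24 (pi2 pa) = pe * b24 pv4 := by
  rw [pi2_pa]
  decide +kernel

theorem mp_Md' : Nonempty (LinearMap.ker (colR pa pb) ≃ₗ[L7] Md pe) :=
  equiv_Md um1 um2 um3 um4 kg4 pe1 pe2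

theorem pe_class : ∃ k : Fin 6, ∃ j : Fin 4,
    gg ^ 1 = pe * ((⟨2, 0⟩ : Dbl F7 true) ^ (k : ℕ) * (⟨0, 1⟩ : Dbl F7 true) ^ (j : ℕ)) := by
  decide +kernel

theorem mp_Md : Nonempty (LinearMap.ker (colR pa pb) ≃ₗ[L7] Md (gg ^ 1)) := by
  obtain ⟨k, j, h⟩ := pe_class
  rw [← b24_w4] at h
  obtain ⟨f⟩ := mp_Md'
  obtain ⟨f'⟩ := Md_unit (w4_spec k j).1 (w4_spec k j).2 h
  exact ⟨f.trans f'⟩

/-- every kernel is realized -/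
theorem realized {a b c d : L7} (h : c * a + d * b = 1) : Realized 7 a b := by
  obtain ⟨l, ⟨f⟩⟩ := ker_two h
  fin_cases l
  · obtain ⟨f'⟩ := std_Md
    exact realized_std 7 ⟨f.trans f'.symm⟩
  · obtain ⟨f'⟩ := mp_Md
    exact realized_mp 7 ⟨f.trans f'.symm⟩

/-- the algebraic `D(2)` property of the generalized quaternion group of order `28` -/
theorem main : AlgebraicD2Property (QuaternionGroup 7) :=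
  d2_of 7 (fun _ _ _ _ h => realized h)

end Vale.Agent.P246.Q28
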